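import Vale.Agent.P204.Full.Contract

/-!
The almost complex structure and the transition maps read in charts.
-/

open scoped Manifold ContDiff Topology
open MeasureTheory Set Filter

noncomputable section

namespace Vale.Agent.P204.Full.Density

universe u

variable {X : Type u} [TopologicalSpace X] [ChartedSpace R4 X] [IsManifold 𝓘(ℝ, R4) ∞ X]

/-- The derivative of a chart at the point over `y`. -/
def dch (c : OpenPartialHomeomorph X R4) (y : R4) : Endo :=
  mfderiv 𝓘(ℝ, R4) 𝓘(ℝ, R4) c (c.symm y)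

/-- The almost complex structure in a chart. -/
def Jc (G : Geo X) (c : OpenPartialHomeomorph X R4) (y : R4) : Endo :=
  (dch c y).comp ((G.J (c.symm y) : Endo).comp (dsymm c y))

/-- The derivative of a change of charts. -/
def transDer (c c' : OpenPartialHomeomorph X R4) (z : R4) : Endo :=
  (mfderiv 𝓘(ℝ, R4) 𝓘(ℝ, R4) c (c'.symm z) : Endo).comp (dsymm c' z)

set_option linter.unusedSectionVars false

variable {c c' : OpenPartialHomeomorph X R4}

theorem chart_mdiff (hc : c ∈ IsManifold.maximalAtlas 𝓘(ℝ, R4) ∞ X) :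
    c.MDifferentiable 𝓘(ℝ, R4) 𝓘(ℝ, R4) :=
  ⟨(contMDiffOn_of_mem_maximalAtlas hc).mdifferentiableOn (by simp),
    (contMDiffOn_symm_of_mem_maximalAtlas hc).mdifferentiableOn (by simp)⟩

theorem dch_dsymm (hc : c ∈ IsManifold.maximalAtlas 𝓘(ℝ, R4) ∞ X) {y : R4} (hy : y ∈ c.target)
    (v : R4) : dch c y (dsymm c y v) = v := by
  have h := DFunLike.congr_fun ((chart_mdiff hc).comp_symm_deriv hy) v
  exact h

theorem dsymm_dch (hc : c ∈ IsManifold.maximalAtlas 𝓘(ℝ, R4) ∞ X) {y : R4} (hy : y ∈ c.target)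
    (v : R4) : dsymm c y (dch c y v) = v := by
  have h := DFunLike.congr_fun ((chart_mdiff hc).symm_comp_deriv (c.map_target hy)) v
  rw [c.right_inv hy] at h
  exact h

theorem dsymm_Jc (G : Geo X) (hc : c ∈ IsManifold.maximalAtlas 𝓘(ℝ, R4) ∞ X) {y : R4}
    (hy : y ∈ c.target) (v : R4) :
    dsymm c y (Jc G c y v) = G.J (c.symm y) (dsymm c y v) :=
  dsymm_dch hc hy _

theorem Jc_Jc (G : Geo X) (hc : c ∈ IsManifold.maximalAtlas 𝓘(ℝ, R4) ∞ X) {y : R4}
    (hy : y ∈ c.target) (v : R4) : Jc G c y (Jc G c y v) = -v := by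
  have h : G.J (c.symm y) (G.J (c.symm y) (dsymm c y v)) = -dsymm c y v := G.J_acs.2 _ _
  calc Jc G c y (Jc G c y v) = dch c y (G.J (c.symm y) (dsymm c y (Jc G c y v))) := rfl
    _ = dch c y (-dsymm c y v) := by rw [dsymm_Jc G hc hy, h]
    _ = -v := by rw [map_neg, dch_dsymm hc hy]

theorem view2_omega_inv (G : Geo X) (hc : c ∈ IsManifold.maximalAtlas 𝓘(ℝ, R4) ∞ X) {y : R4}
    (hy : y ∈ c.target) (u v : R4) :
    view2 c G.omega y (Jc G c y u) (Jc G c y v) = view2 c G.omega y u v := by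
  show G.omega _ (dsymm c y _) (dsymm c y _) = G.omega _ (dsymm c y u) (dsymm c y v)
  rw [dsymm_Jc G hc hy, dsymm_Jc G hc hy, G.omega_inv]

theorem view2_apply_Jc (G : Geo X) (hc : c ∈ IsManifold.maximalAtlas 𝓘(ℝ, R4) ∞ X) {y : R4}
    (hy : y ∈ c.target) (θ : X → Bil) (v : R4) :
    view2 c θ y v (Jc G c y v) = θ (c.symm y) (dsymm c y v) (G.J (c.symm y) (dsymm c y v)) := by
  show θ _ (dsymm c y v) (dsymm c y _) = _
  rw [dsymm_Jc G hc hy]

theorem view2_omega_pos (G : Geo X) (hc : c ∈ IsManifold.maximalAtlas 𝓘(ℝ, R4) ∞ X) {y : R4}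
    (hy : y ∈ c.target) {v : R4} (hv : v ≠ 0) : 0 < view2 c G.omega y v (Jc G c y v) := by
  rw [view2_apply_Jc G hc hy]
  refine G.omega_pos _ _ fun h => hv ?_
  rw [← dch_dsymm hc hy v, h, map_zero]

theorem view2_p20 (G : Geo X) (hc : c ∈ IsManifold.maximalAtlas 𝓘(ℝ, R4) ∞ X) {y : R4}
    (hy : y ∈ c.target) (θ : X → Bil) :
    view2 c (G.p20 θ) y = anti20 (Jc G c y) (view2 c θ y) := by
  ext u v
  show anti20 (G.J (c.symm y)) (θ (c.symm y)) (dsymm c y u) (dsymm c y v) = _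
  simp only [anti20, pullBil, view2, smul_apply, sub_apply,
    ContinuousLinearMap.bilinearComp_apply, dsymm_Jc G hc hy]

theorem contDiffOn_endo {A : R4 → Endo} {U : Set R4}
    (h : ∀ α : Cov, ContDiffOn ℝ ∞ (fun z => α.comp (A z)) U) : ContDiffOn ℝ ∞ A U := by
  refine contDiffOn_clm_apply.2 fun v => (contDiffOn_piLp 2).2 fun i => ?_
  exact contDiffOn_clm_apply.1 (h (EuclideanSpace.proj i)) v

theorem view1_push1 (c c' : OpenPartialHomeomorph X R4) (α : R4 → Cov) {z : R4}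
    (hz : c'.symm z ∈ c.source) :
    view1 c' (push1 c α) z = (α (c (c'.symm z))).comp (transDer c c' z) := by
  ext v
  show push1 c α (c'.symm z) (dsymm c' z v) = _
  rw [push1, if_pos hz]
  rfl

theorem view2_push2 (c c' : OpenPartialHomeomorph X R4) (θ : R4 → Bil) {z : R4}
    (hz : c'.symm z ∈ c.source) :
    view2 c' (push2 c θ) z = pullBil (transDer c c' z) (θ (c (c'.symm z))) := by
  ext u v
  show push2 c θ (c'.symm z) (dsymm c' z u) (dsymm c' z v) = _
  rw [push2, if_pos hz]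
  rfl

variable [MeasurableSpace X] {G : Geo X}

theorem exists_bump {U : Set R4} (hU : IsOpen U) {y : R4} (hy : y ∈ U) :
    ∃ b : ContDiffBump y, tsupport b ⊆ U := by
  obtain ⟨ε, hε, hb⟩ := Metric.isOpen_iff.1 hU y hy
  refine ⟨⟨ε / 4, ε / 2, by positivity, by linarith⟩, ?_⟩
  rw [ContDiffBump.tsupport_eq]
  exact (Metric.closedBall_subset_ball (half_lt_self hε)).trans hb

theorem cutoff_cov {y : R4} {U : Set R4} (b : ContDiffBump y) (hb : tsupport b ⊆ U) (α : Cov) :
    ContDiff ℝ ∞ (fun z => b z • α) ∧ HasCompactSupport (fun z => b z • α) ∧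
      tsupport (fun z => b z • α) ⊆ U :=
  ⟨b.contDiff.smul contDiff_const, b.hasCompactSupport.smul_right,
    (tsupport_smul_subset_left _ _).trans hb⟩

theorem Jc_smooth (hB : BaseFacts G) (hc : c ∈ IsManifold.maximalAtlas 𝓘(ℝ, R4) ∞ X) :
    ContDiffOn ℝ ∞ (Jc G c) c.target := by
  refine contDiffOn_endo fun α y hy => ContDiffAt.contDiffWithinAt ?_
  obtain ⟨b, hb⟩ := exists_bump c.open_target hy
  obtain ⟨h1, h2, h3⟩ := cutoff_cov b hb α
  have h := (hB.smooth_view1 _ (hB.compJ_smooth _ (hB.push1_smooth c hc _ h1 h2 h3).1) c hc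
    ).contDiffAt (c.open_target.mem_nhds hy)
  refine h.congr_of_eventuallyEq ?_
  filter_upwards [b.eventuallyEq_one, c.open_target.mem_nhds hy] with z hz1 hz
  ext v
  show α (Jc G c z v) = (push1 c (fun z => b z • α) (c.symm z)) (G.J (c.symm z) (dsymm c z v))
  rw [push1, if_pos (c.map_target hz), c.right_inv hz, hz1, Pi.one_apply, one_smul]
  rfl

/-- The common domain of two charts, in the second one. -/
def overlap (c c' : OpenPartialHomeomorph X R4) : Set R4 := c'.target ∩ c'.symm ⁻¹' c.source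

theorem isOpen_overlap : IsOpen (overlap c c') :=
  c'.isOpen_inter_preimage_symm c.open_source

theorem trans_smooth (hc : c ∈ IsManifold.maximalAtlas 𝓘(ℝ, R4) ∞ X)
    (hc' : c' ∈ IsManifold.maximalAtlas 𝓘(ℝ, R4) ∞ X) :
    ContDiffOn ℝ ∞ (fun z => c (c'.symm z)) (overlap c c') :=
  contMDiffOn_iff_contDiffOn.1 ((contMDiffOn_of_mem_maximalAtlas hc).comp
    ((contMDiffOn_symm_of_mem_maximalAtlas hc').mono inter_subset_left) fun _ h => h.2)

theorem transDer_smooth (hB : BaseFacts G) (hc : c ∈ IsManifold.maximalAtlas 𝓘(ℝ, R4) ∞ X)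
    (hc' : c' ∈ IsManifold.maximalAtlas 𝓘(ℝ, R4) ∞ X) :
    ContDiffOn ℝ ∞ (transDer c c') (overlap c c') := by
  refine contDiffOn_endo fun α z hz => ContDiffAt.contDiffWithinAt ?_
  obtain ⟨b, hb⟩ := exists_bump c.open_target (c.map_source hz.2)
  obtain ⟨h1, h2, h3⟩ := cutoff_cov b hb α
  have h := (hB.smooth_view1 _ (hB.push1_smooth c hc _ h1 h2 h3).1 c' hc').contDiffAt
    (c'.open_target.mem_nhds hz.1)
  refine h.congr_of_eventuallyEq ?_
  have hev : ∀ᶠ w in 𝓝 z, b (c (c'.symm w)) = 1 :=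
    ((trans_smooth hc hc').continuousOn.continuousAt (isOpen_overlap.mem_nhds hz)).eventually
      b.eventuallyEq_one
  filter_upwards [hev, isOpen_overlap.mem_nhds hz] with w hw1 hw
  rw [view1_push1 c c' _ hw.2, hw1, one_smul]

end Vale.Agent.P204.Full.Density
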