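import Mathlib

/-!
Bounds for iterated derivatives of scaled families.
-/

open scoped ContDiff Topology
open Set Filter

noncomputable section

namespace Vale.Agent.P204.Full.Density

variable {E : Type*} [NormedAddCommGroup E] [NormedSpace ℝ E] {F : Type*} [NormedAddCommGroup F]
  [NormedSpace ℝ F] {G : Type*} [NormedAddCommGroup G] [NormedSpace ℝ G]

theorem norm_iteratedFDeriv_affine {f : F → G} (hf : ContDiff ℝ ∞ f) (L : E →L[ℝ] F) (b : F)
    (m : ℕ) (y : E) :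
    ‖iteratedFDeriv ℝ m (fun z => f (b + L z)) y‖ ≤ ‖iteratedFDeriv ℝ m f (b + L y)‖ * ‖L‖ ^ m := by
  have h1 : ContDiff ℝ ∞ fun w => f (b + w) := hf.comp (contDiff_const.add contDiff_id)
  have h := L.iteratedFDeriv_comp_right (h1) y (i := m) (by exact_mod_cast le_top)
  rw [Function.comp_def] at h
  rw [h]
  refine (ContinuousMultilinearMap.norm_compContinuousLinearMap_le _ _).trans ?_
  rw [iteratedFDeriv_comp_add_left]
  simp

/-- A smooth family read at scale `ρ`. -/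
theorem scaled_bound {P : Type*} [NormedAddCommGroup P] [NormedSpace ℝ P] [ProperSpace E]
    {Φ : P × E → G} (hΦ : ContDiff ℝ ∞ Φ) {K : Set P} (hK : IsCompact K) (R : ℝ) (m : ℕ) :
    ∃ C : ℝ, 0 ≤ C ∧ ∀ p ∈ K, ∀ ρ : ℝ, 0 < ρ → ∀ y₀ y : E, ‖ρ⁻¹ • (y - y₀)‖ ≤ R →
      ‖iteratedFDeriv ℝ m (fun z => Φ (p, ρ⁻¹ • (z - y₀))) y‖ ≤ C * ρ⁻¹ ^ m := by
  obtain ⟨C, hC⟩ := (hK.prod (isCompact_closedBall (0 : E) R)).exists_bound_of_continuousOn
    (hΦ.continuous_iteratedFDeriv (m := m) (by exact_mod_cast le_top)).continuousOn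
  refine ⟨max C 0, le_max_right _ _, fun p hp ρ hρ y₀ y hy => ?_⟩
  set L : E →L[ℝ] P × E :=
    (ContinuousLinearMap.inr ℝ P E).comp (ρ⁻¹ • ContinuousLinearMap.id ℝ E) with hL
  have he : ∀ z, (p, ρ⁻¹ • (z - y₀)) = ((p, -(ρ⁻¹ • y₀)) : P × E) + L z := fun z => by
    simp [hL, smul_sub, sub_eq_neg_add]
  have hn : ‖L‖ ≤ ρ⁻¹ := by
    refine L.opNorm_le_bound (inv_nonneg.2 hρ.le) fun z => ?_
    simp [hL, Prod.norm_def, norm_smul, abs_of_pos hρ]
    positivity
  simp only [he]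
  refine (norm_iteratedFDeriv_affine hΦ L _ m y).trans ?_
  rw [← he]
  exact mul_le_mul ((hC _ ⟨hp, by simpa using hy⟩).trans (le_max_left _ _))
    (pow_le_pow_left₀ (norm_nonneg _) hn _) (by positivity) (le_max_right _ _)

/-- A cut-off function times a locally smooth function is smooth. -/
theorem contDiff_cutoff {U : Set E} (hU : IsOpen U) {β : E → ℝ} (hβ : ContDiff ℝ ∞ β)
    (hs : tsupport β ⊆ U) {f : E → G} (hf : ContDiffOn ℝ ∞ f U) :
    ContDiff ℝ ∞ fun y => β y • f y := by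
  rw [contDiff_iff_contDiffAt]
  intro y
  by_cases hy : y ∈ U
  · exact hβ.contDiffAt.smul (hf.contDiffAt (hU.mem_nhds hy))
  · refine (contDiffAt_const (c := (0 : G))).congr_of_eventuallyEq ?_
    filter_upwards [notMem_tsupport_iff_eventuallyEq.1 fun h => hy (hs h)] with z hz
    simp [hz]

end Vale.Agent.P204.Full.Density
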