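import Vale.Agent.P204.Full.Density.Test

/-!
The density inequality between two scales.
-/

open scoped Manifold ContDiff Topology
open MeasureTheory Set Filter Metric

noncomputable section

namespace Vale.Agent.P204.Full.Density

universe u

set_option linter.unusedSectionVars false
set_option maxSynthPendingDepth 3

theorem exists_scale {A r R : ℝ} (hA : 1 ≤ A) (hr : 0 < r) (h : 4 * A * r ^ 2 ≤ R ^ 2) :
    ∃ m : ℕ, 1 ≤ m ∧ 4 ^ m * (A * r ^ 2) ≤ R ^ 2 ∧ R ^ 2 < 4 ^ (m + 1) * (A * r ^ 2) := by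
  have hd : 0 < A * r ^ 2 := by positivity
  have hx : 4 ≤ R ^ 2 / (A * r ^ 2) := by rw [le_div_iff₀ hd]; linarith
  obtain ⟨m, h1, h2⟩ := exists_nat_pow_near (le_trans (by norm_num) hx) (show (1 : ℝ) < 4 by norm_num)
  refine ⟨m, ?_, (le_div_iff₀ hd).1 h1, (div_lt_iff₀ hd).1 h2⟩
  rcases m with _ | m
  · norm_num at h2; linarith
  · omega

variable {X : Type u} [TopologicalSpace X] [T2Space X] [CompactSpace X] [ChartedSpace R4 X]
  [IsManifold 𝓘(ℝ, R4) ∞ X] [MeasurableSpace X] [BorelSpace X] {G : Geo X}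

/-- The lower bound for `P` of a test field with a positive core. -/
theorem lower_core (hB : BaseFacts G) (hC : CurFacts G) (D : PosCur G) {η : X → Bil}
    (hη : Cont2 η) {τ E : ℝ} (hτ : 0 ≤ τ) (hE : 0 ≤ E) {χ : X → ℝ} (hχ : Continuous χ)
    (hχ0 : ∀ x, 0 ≤ χ x) {B U : Set X} (hB1 : ∀ x ∈ B, χ x = 1) (hBc : IsClosed B)
    (hU : IsClosed U)
    (hlow : ∀ (x : X) (v : R4), -(U.indicator (fun _ => E) x * G.metric x v v)
      ≤ η x v (G.J x v) - τ * χ x * G.metric x v v) :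
    τ * D.mu.real B ≤ D.P η + E * D.mu.real U := by
  have := D.finite_mu
  set θ := η + (-τ) • fun x => χ x • G.omega x with hθ
  have hc : Cont2 fun x => χ x • G.omega x := cont2_smul hχ (hB.smooth_cont _ G.omega_smooth)
  have hθc : Cont2 θ := cont2_add hη (cont2_smul (f := fun _ => -τ) continuous_const hc)
  have hint : Integrable (U.indicator fun _ : X => E) D.mu :=
    (integrable_const E).indicator hU.measurableSet
  have h := hC.lower D θ _ hθc hint (fun x => Set.indicator_nonneg (fun _ _ => hE) x) fun x v => by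
    refine (hlow x v).trans (le_of_eq ?_)
    simp [hθ, Geo.metric, mul_assoc]
    ring
  rw [hθ, map_add, map_smul, D.P_omega χ hχ, integral_indicator_const _ hU.measurableSet] at h
  simp only [smul_eq_mul] at h
  have hχi : D.mu.real B ≤ ∫ x, χ x ∂D.mu := by
    calc D.mu.real B = ∫ x, B.indicator (fun _ => (1 : ℝ)) x ∂D.mu := by
          rw [integral_indicator_const _ hBc.measurableSet]; simp
      _ ≤ _ := by
          refine integral_mono ((integrable_const _).indicator hBc.measurableSet)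
            (hχ.integrable_of_hasCompactSupport (HasCompactSupport.of_compactSpace χ)) fun x => ?_
          by_cases hx : x ∈ B
          · simp [hx, hB1 x hx]
          · simp [hx, hχ0 x]
  nlinarith [mul_le_mul_of_nonneg_left hχi hτ]

/-- Pointwise bound of the summed test field against the cut-off. -/
theorem test_field (i : Fin G.n) {κ Cq : ℝ} (hκ : 1 ≤ κ)
    (htp : ∀ y₀ : R4, ‖y₀‖ ≤ 1 → ∀ y : R4, ‖y‖ ≤ 3 → ∀ (N R : ℝ),
      1 ≤ N → 0 < R → R ≤ 1 → ∀ u : R4,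
      (gC G i y u u ≤ κ * gC G i y₀ u u ∧ 0 ≤ gC G i y u u ∧
        gC G i y₀ (y - y₀) (y - y₀) ≤ κ * ‖y - y₀‖ ^ 2) ∧
      -(Cq * R⁻¹ ^ 2 * gC G i y u u) ≤
        potForm N R (omC G i y₀) (gC G i y₀) (y - y₀) u (Jc G (G.c i) y u) ∧
      (N * (gC G i y₀ (y - y₀) (y - y₀) * R⁻¹ ^ 2) ≤ 1 / 2 →
        R⁻¹ ^ 2 * (N - 1) / κ * gC G i y u u - Cq * R⁻¹ ^ 2 * gC G i y u u ≤
          potForm N R (omC G i y₀) (gC G i y₀) (y - y₀) u (Jc G (G.c i) y u)))
    {x : X} (hx1 : ‖G.c i x‖ ≤ 1) {R δ ρ' : ℝ} {m : ℕ} (hR : 0 < R)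
    (hR1 : R ≤ 1) (hδ : δ ≤ 1) (hρδ : ρ' ≤ δ)
    (hN : (4 : ℝ) ^ m * (κ * ρ' ^ 2 * R⁻¹ ^ 2) ≤ 1 / 2)
    {η : X → Bil} (hsupp : ∀ z, η z ≠ 0 → z ∈ (G.c i).symm '' closedBall (G.c i x) δ)
    (hview : ∀ y ∈ (G.c i).target, view2 (G.c i) η y
      = potForm (4 ^ m) R (omC G i (G.c i x)) (gC G i (G.c i x)) (y - G.c i x))
    {χ : X → ℝ} (hχ : ∀ z, 0 ≤ χ z ∧ χ z ≤ 1)
    (hχs : ∀ z, χ z ≠ 0 → z ∈ (G.c i).symm '' closedBall (G.c i x) ρ') (z : X) (v : R4) :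
    -(((G.c i).symm '' closedBall (G.c i x) δ).indicator (fun _ => Cq * R⁻¹ ^ 2) z
        * G.metric z v v)
      ≤ η z v (G.J z v) - R⁻¹ ^ 2 * ((4 : ℝ) ^ m - 1) / κ * χ z * G.metric z v v := by
  by_cases hz : z ∈ (G.c i).symm '' closedBall (G.c i x) δ
  swap
  · have h1 : η z = 0 := by_contra fun h => hz (hsupp z h)
    have h2 : χ z = 0 := by_contra fun h => hz (image_mono (closedBall_subset_closedBall hρδ) (hχs z h))
    simp [Set.indicator_of_notMem hz, h1, h2]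
  rw [Set.indicator_of_mem hz]
  obtain ⟨y, hy, rfl⟩ := hz
  have hy3 : ‖y‖ ≤ 3 := by
    rw [mem_closedBall, dist_eq_norm] at hy
    have := norm_le_norm_add_norm_sub' y (G.c i x)
    linarith
  have hyt : y ∈ (G.c i).target := ball_target G i (r := 3) (by norm_num) (by simpa using hy3)
  set u := dch (G.c i) y v with hu
  have hv : dsymm (G.c i) y u = v := dsymm_dch (G.c_mem i) hyt v
  have e1 : η ((G.c i).symm y) v (G.J ((G.c i).symm y) v)
      = view2 (G.c i) η y u (Jc G (G.c i) y u) := by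
    rw [view2_apply_Jc G (G.c_mem i) hyt, hv]
  have e2 : G.metric ((G.c i).symm y) v v = gC G i y u u := by
    show _ = view2 (G.c i) G.omega y u (Jc G (G.c i) y u)
    rw [view2_apply_Jc G (G.c_mem i) hyt, hv]
    rfl
  have h4 : (1 : ℝ) ≤ 4 ^ m := one_le_pow₀ (by norm_num)
  obtain ⟨⟨-, hg0, -⟩, hlow, hcore⟩ := htp (G.c i x) hx1 y hy3 (4 ^ m) R h4 hR hR1 u
  rw [e1, e2, hview y hyt]
  by_cases hχ0 : χ ((G.c i).symm y) = 0
  · rw [hχ0, mul_zero, zero_mul, sub_zero]; exact hlow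
  obtain ⟨y', hy', he⟩ := hχs _ hχ0
  have hyy : y' = y := by
    have hy't : y' ∈ (G.c i).target := by
      refine ball_target G i (r := 3) (by norm_num) ?_
      rw [mem_closedBall, dist_eq_norm] at hy'
      rw [mem_closedBall, dist_zero_right]
      have := norm_le_norm_add_norm_sub' y' (G.c i x)
      linarith
    rw [← (G.c i).right_inv hy't, he, (G.c i).right_inv hyt]
  subst hyy
  obtain ⟨⟨-, -, hSz⟩, -, -⟩ := htp (G.c i x) hx1 y' hy3 (4 ^ m) R h4 hR hR1 u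
  have hcond : (4 : ℝ) ^ m * (gC G i (G.c i x) (y' - G.c i x) (y' - G.c i x) * R⁻¹ ^ 2) ≤ 1 / 2 := by
    refine le_trans (mul_le_mul_of_nonneg_left (mul_le_mul_of_nonneg_right (hSz.trans ?_)
      (sq_nonneg _)) (by positivity)) hN
    rw [mem_closedBall, dist_eq_norm] at hy'
    exact mul_le_mul_of_nonneg_left (pow_le_pow_left₀ (norm_nonneg _) hy' 2) (by linarith)
  have h5 := hcore hcond
  have hτ : 0 ≤ R⁻¹ ^ 2 * ((4 : ℝ) ^ m - 1) / κ :=
    div_nonneg (mul_nonneg (sq_nonneg _) (by linarith)) (by linarith)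
  have h6 := mul_le_mul_of_nonneg_right
    (mul_le_mul_of_nonneg_left (hχ ((G.c i).symm y')).2 hτ) hg0
  rw [mul_one] at h6
  linarith

theorem scale_facts {A κ r R : ℝ} (hA : 1 ≤ A) (hκ : 1 ≤ κ) (hr : 0 < r) (hR : 0 < R)
    (hr4 : 4 * A * r ≤ R) :
    ∃ m : ℕ, (∀ j < m, r ≤ R / 2 ^ j) ∧ (4 : ℝ) ^ m * (A * r ^ 2) * R⁻¹ ^ 2 ≤ 1 ∧
      (r ^ 2)⁻¹ / (8 * A * κ) ≤ R⁻¹ ^ 2 * ((4 : ℝ) ^ m - 1) / κ := by
  have h4r : 4 * A * r ^ 2 ≤ R ^ 2 := by
    have h := pow_le_pow_left₀ (by positivity) hr4 2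
    nlinarith [mul_le_mul_of_nonneg_left hA (show 0 ≤ 4 * A * r ^ 2 by positivity)]
  obtain ⟨m, hm1, hm2, hm3⟩ := exists_scale hA hr h4r
  refine ⟨m, fun j hj => ?_, ?_, ?_⟩
  · refine (pow_le_pow_iff_left₀ hr.le (by positivity) two_ne_zero).1 ?_
    rw [div_pow, le_div_iff₀ (by positivity), ← pow_mul, mul_comm j 2, pow_mul]
    calc r ^ 2 * ((2 : ℝ) ^ 2) ^ j ≤ (A * r ^ 2) * 4 ^ m := by
          refine mul_le_mul (le_mul_of_one_le_left (sq_nonneg r) hA) ?_ (by positivity)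
            (by positivity)
          norm_num
          exact pow_le_pow_right₀ (by norm_num) hj.le
      _ ≤ R ^ 2 := by rw [mul_comm]; exact hm2
  · calc (4 : ℝ) ^ m * (A * r ^ 2) * R⁻¹ ^ 2 ≤ R ^ 2 * R⁻¹ ^ 2 :=
          mul_le_mul_of_nonneg_right hm2 (sq_nonneg _)
      _ = 1 := by field_simp
  · have h4 : (4 : ℝ) ≤ 4 ^ m := le_self_pow₀ (by norm_num) (by omega)
    have h5 : (r ^ 2)⁻¹ / (8 * A) ≤ R⁻¹ ^ 2 * ((4 : ℝ) ^ m - 1) := by
      have e : (r ^ 2)⁻¹ / (8 * A) = R⁻¹ ^ 2 * (R ^ 2 / (8 * (A * r ^ 2))) := by field_simp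
      rw [e]
      refine mul_le_mul_of_nonneg_left ?_ (sq_nonneg _)
      rw [div_le_iff₀ (by positivity)]
      rw [pow_succ (4 : ℝ) m] at hm3
      nlinarith [mul_pos (show (0 : ℝ) < 4 ^ m by positivity) (show 0 < A * r ^ 2 by positivity)]
    rw [← div_div]
    exact div_le_div_of_nonneg_right h5 (by linarith)

/-- The cut-off around `near r x` and the set carrying the error. -/
theorem cut_data (hB : BaseFacts G) (i : Fin G.n) :
    ∃ Cn rn : ℝ, 1 ≤ Cn ∧ 0 < rn ∧ ∀ x, x ∈ (G.c i).source → ‖G.c i x‖ ≤ 1 → ∀ r R : ℝ,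
      0 < r → r ≤ rn → 0 ≤ R → R ≤ rn → R ≤ 1 →
        IsClosed ((G.c i).symm '' closedBall (G.c i x) R) ∧
        (G.c i).symm '' closedBall (G.c i x) R ⊆ G.near R x ∧
        ∃ χ : C(X, ℝ), (∀ z, 0 ≤ χ z ∧ χ z ≤ 1) ∧ (∀ z ∈ G.near r x, χ z = 1) ∧
          ∀ z, χ z ≠ 0 → z ∈ (G.c i).symm '' closedBall (G.c i x) (2 * Cn * r) := by
  obtain ⟨Cn, rn, hCn, hrn, hnear⟩ := hB.near_chart
  refine ⟨Cn, rn, hCn, hrn, fun x hxs hx1 r R hr hrr hR hRr hR11 => ?_⟩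
  have hy₀5 : ‖G.c i x‖ ≤ 5 / 2 := hx1.trans (by norm_num)
  obtain ⟨hn1, hn2⟩ := hnear i x r hr.le hrr hxs hy₀5
  obtain ⟨hn3, hn4⟩ := hnear i x R hR hRr hxs hy₀5
  have hyt : closedBall (G.c i x) R ⊆ (G.c i).target := fun y hy => by
    refine ball_target G i (r := 2) (by norm_num) ?_
    rw [mem_closedBall, dist_eq_norm] at hy
    rw [mem_closedBall, dist_zero_right]
    have := norm_le_norm_add_norm_sub' y (G.c i x)
    linarith
  refine ⟨(isCompact_image (isCompact_closedBall _ _) hyt).isClosed, ?_, ?_⟩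
  · rintro _ ⟨y, hy, rfl⟩
    refine hn3 ⟨(G.c i).map_target (hyt hy), ?_⟩
    rw [Set.mem_preimage, (G.c i).right_inv (hyt hy)]
    exact hy
  set O := (G.c i).source ∩ G.c i ⁻¹' ball (G.c i x) (2 * Cn * r)
  have hO : IsOpen O := (G.c i).isOpen_inter_preimage isOpen_ball
  have hdisj : Disjoint Oᶜ (G.near r x) := by
    refine Set.disjoint_left.2 fun z hz1 hz2 => hz1 ⟨(hn2 hz2).1, ?_⟩
    have hlt : Cn * r < 2 * Cn * r := by nlinarith [mul_pos (lt_of_lt_of_le one_pos hCn) hr]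
    exact closedBall_subset_ball hlt (hn2 hz2).2
  obtain ⟨χ, hχ0, hχ1, hχI⟩ := exists_continuous_zero_one_of_isClosed hO.isClosed_compl
    (near_closed_slice hB r x) hdisj
  refine ⟨χ, hχI, fun z hz => hχ1 hz, fun z hz => ?_⟩
  have hzO : z ∈ O := by_contra fun h => hz (hχ0 h)
  exact ⟨G.c i z, ball_subset_closedBall hzO.2, (G.c i).left_inv hzO.1⟩

theorem pieces_field (hB : BaseFacts G) (i : Fin G.n) :
    ∃ L : ℝ, 1 ≤ L ∧ ∀ y₀ : R4, ‖y₀‖ ≤ 1 → ∀ R : ℝ, 0 < R → R ≤ 1 → ∀ m : ℕ,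
      (∀ j < m, Closed2 (pieceForm G i y₀ 4 (R / L / 2 ^ j))) ∧
      Cont2 (∑ j ∈ Finset.range m, pieceForm G i y₀ 4 (R / L / 2 ^ j)) ∧
      (∀ y ∈ (G.c i).target,
        view2 (G.c i) (∑ j ∈ Finset.range m, pieceForm G i y₀ 4 (R / L / 2 ^ j)) y
          = potForm (4 ^ m) (R / L) (omC G i y₀) (gC G i y₀) (y - y₀)) ∧
      ∀ z, (∑ j ∈ Finset.range m, pieceForm G i y₀ 4 (R / L / 2 ^ j)) z ≠ 0 →
        z ∈ (G.c i).symm '' closedBall y₀ R := by
  obtain ⟨c₀, M, hc₀, -, hg⟩ := metric_bounds hB i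
  refine ⟨max 1 (Real.sqrt c₀)⁻¹, le_max_left _ _, fun y₀ hy₀ R hR hR1 m => ?_⟩
  set L := max 1 (Real.sqrt c₀)⁻¹
  have hL : 1 ≤ L := le_max_left _ _
  have hR'0 : 0 < R / L := by positivity
  have hle : ∀ j : ℕ, R / L / 2 ^ j / Real.sqrt c₀ ≤ R := fun j => by
    refine (div_le_div_of_nonneg_right (div_le_self hR'0.le (one_le_pow₀ one_le_two))
      (Real.sqrt_nonneg _)).trans ?_
    rw [div_div, div_le_iff₀ (by positivity)]
    refine le_mul_of_one_le_right hR.le ?_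
    calc (1 : ℝ) = (Real.sqrt c₀)⁻¹ * Real.sqrt c₀ :=
          (inv_mul_cancel₀ (Real.sqrt_pos.2 hc₀).ne').symm
      _ ≤ L * Real.sqrt c₀ := mul_le_mul_of_nonneg_right (le_max_right _ _) (Real.sqrt_nonneg _)
  have hpp : ∀ j : ℕ, _ := fun j => piece_props hB i hc₀ (fun y hy => (hg y hy).1)
    hy₀ (show (1 : ℝ) ≤ 4 by norm_num) (show 0 < R / L / 2 ^ j by positivity) ((hle j).trans hR1)
  refine ⟨fun j _ => (hpp j).1, cont2_sum _ fun j _ => hB.smooth_cont _ (hpp j).1.1,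
    fun y hy => ?_, fun z hz => ?_⟩
  · rw [view2_sum, Finset.sum_congr rfl fun j _ => (hpp j).2.2 y hy, potForm_sum]
  · rw [Finset.sum_apply] at hz
    obtain ⟨j, -, hne⟩ := Finset.exists_ne_zero_of_sum_ne_zero hz
    exact image_mono (closedBall_subset_closedBall (hle j)) ((hpp j).2.1 z hne)

theorem final_arith {A κ Cq CQ L r R τ d N U s Cbig : ℝ} (hA : 1 ≤ A) (hκ : 1 ≤ κ) (hCq : 0 ≤ Cq)
    (hCQ : 0 ≤ CQ) (hL : 1 ≤ L) (hR : 0 < R) (hU : 0 ≤ U) (hs : 0 ≤ s)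
    (hτ : (r ^ 2)⁻¹ / (8 * A * κ) ≤ τ) (hN : d = (r ^ 2)⁻¹ * N) (hN0 : 0 ≤ N)
    (hmain : τ * N ≤ CQ * (R / L) * s + Cq * (R / L)⁻¹ ^ 2 * U)
    (hbig : 8 * A * κ * (Cq * L ^ 2 + CQ) ≤ Cbig) :
    d ≤ Cbig * ((R ^ 2)⁻¹ * U) + Cbig * R * s := by
  calc d = 8 * A * κ * ((r ^ 2)⁻¹ / (8 * A * κ) * N) := by rw [hN]; field_simp
    _ ≤ 8 * A * κ * (τ * N) :=
        mul_le_mul_of_nonneg_left (mul_le_mul_of_nonneg_right hτ hN0) (by positivity)
    _ ≤ 8 * A * κ * (CQ * R * s + Cq * (R / L)⁻¹ ^ 2 * U) := by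
        refine mul_le_mul_of_nonneg_left (hmain.trans (add_le_add_left ?_ _)) (by positivity)
        exact mul_le_mul_of_nonneg_right (mul_le_mul_of_nonneg_left (div_le_self hR.le hL) hCQ) hs
    _ = 8 * A * κ * (Cq * L ^ 2) * ((R ^ 2)⁻¹ * U) + 8 * A * κ * CQ * R * s := by
        field_simp; ring
    _ ≤ _ := by
        have h7 : 0 ≤ 8 * A * κ * (Cq * L ^ 2) := by positivity
        have h8 : 0 ≤ 8 * A * κ * CQ := by positivity
        rw [mul_add] at hbig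
        exact add_le_add (mul_le_mul_of_nonneg_right (by linarith) (by positivity))
          (mul_le_mul_of_nonneg_right (mul_le_mul_of_nonneg_right (by linarith) hR.le) hs)

/-- The density inequality for points seen at the centre of one chart. -/
theorem chart_estimate (hB : BaseFacts G) (hC : CurFacts G) {D : Pair G} (hS : ScaleBound D)
    (i : Fin G.n) :
    ∃ C R₁ : ℝ, 1 ≤ C ∧ 0 < R₁ ∧ R₁ ≤ 1 ∧ ∀ x, x ∈ (G.c i).source → ‖G.c i x‖ ≤ 1 →
      ∀ r R, 0 < r → C * r ≤ R → R ≤ R₁ →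
        G.dens D.mu r x ≤ C * G.dens D.mu R x + C * R * Real.sqrt (1 + G.nu D.mu r) := by
  have := D.finite_mu
  obtain ⟨κ, Cq, hκ, hCq, htp⟩ := test_point hB i
  obtain ⟨CQ, R₀, hCQ, hR₀, hR₀1, hcost⟩ := pieces_cost hB hS i
  obtain ⟨Cn, rn, hCn, hrn, hcut⟩ := cut_data hB i
  obtain ⟨L, hL, hpieces⟩ := pieces_field hB i
  set A := 8 * κ * Cn ^ 2 with hA
  have hA1 : 1 ≤ A := by
    have : (1 : ℝ) ≤ κ * Cn ^ 2 := one_le_mul_of_one_le_of_one_le hκ (one_le_pow₀ hCn)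
    linarith
  set Cbig := max (L * (4 * A * Cn)) (8 * A * κ * (Cq * L ^ 2 + CQ)) with hCbig
  have hb1 : L * (4 * A * Cn) ≤ Cbig := le_max_left _ _
  have hb2 : 1 ≤ 4 * A * Cn := one_le_mul_of_one_le_of_one_le (by linarith) hCn
  refine ⟨Cbig, min (min rn 1) R₀, ?_, lt_min (lt_min hrn one_pos) hR₀,
    (min_le_left _ _).trans (min_le_right _ _), fun x hxs hx1 r R hr hrR hR1 => ?_⟩
  · exact le_trans (one_le_mul_of_one_le_of_one_le hL hb2) hb1
  have hR : 0 < R := lt_of_lt_of_le (mul_pos (lt_of_lt_of_le (by positivity) hb1) hr) hrR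
  have hR'0 : 0 < R / L := by positivity
  have hR'R : R / L ≤ R := div_le_self hR.le hL
  have hR1n : R ≤ rn := hR1.trans ((min_le_left _ _).trans (min_le_left _ _))
  have hR11 : R ≤ 1 := hR1.trans ((min_le_left _ _).trans (min_le_right _ _))
  have hrR' : 4 * A * Cn * r ≤ R / L := by
    rw [le_div_iff₀ (by linarith)]
    calc 4 * A * Cn * r * L = L * (4 * A * Cn) * r := by ring
      _ ≤ Cbig * r := mul_le_mul_of_nonneg_right hb1 hr.le
      _ ≤ R := hrR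
  have hr4 : 4 * A * r ≤ R / L := le_trans
    (mul_le_mul_of_nonneg_right (le_mul_of_one_le_right (by positivity) hCn) hr.le) hrR'
  have hrR1 : r ≤ R := le_trans (le_trans (le_mul_of_one_le_left hr.le hb2) hrR') hR'R
  obtain ⟨m, hρ, hm, hτ⟩ := scale_facts hA1 hκ hr hR'0 hr4
  obtain ⟨hcl, hηc, hview, hsupp⟩ := hpieces (G.c i x) hx1 R hR hR11 m
  obtain ⟨hUc, hUn, χ, hχI, hχB, hχs⟩ :=
    hcut x hxs hx1 r R hr (hrR1.trans hR1n) hR.le hR1n hR11
  have hρ'R : 2 * Cn * r ≤ R := by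
    refine le_trans ?_ (hrR'.trans hR'R)
    have : 2 * Cn ≤ 4 * A * Cn := mul_le_mul_of_nonneg_right (by linarith) (by linarith)
    exact mul_le_mul_of_nonneg_right this hr.le
  have hN : (4 : ℝ) ^ m * (κ * (2 * Cn * r) ^ 2 * (R / L)⁻¹ ^ 2) ≤ 1 / 2 := by
    calc (4 : ℝ) ^ m * (κ * (2 * Cn * r) ^ 2 * (R / L)⁻¹ ^ 2)
        = 4 ^ m * (A * r ^ 2) * (R / L)⁻¹ ^ 2 / 2 := by rw [hA]; ring
      _ ≤ 1 / 2 := by linarith
  have hτ0 : 0 ≤ (R / L)⁻¹ ^ 2 * ((4 : ℝ) ^ m - 1) / κ := le_trans (by positivity) hτ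
  have hmain := lower_core hB hC D.toPosCur hηc hτ0 (E := Cq * (R / L)⁻¹ ^ 2) (by positivity)
    (χ := χ) χ.continuous (fun z => (hχI z).1) (B := G.near r x)
    (U := (G.c i).symm '' closedBall (G.c i x) R) hχB (near_closed_slice hB r x) hUc
    (test_field i hκ htp hx1 hR'0 (hR'R.trans hR11) hR11 hρ'R hN hsupp
      hview hχI hχs)
  have hP := hcost x (G.c i x) hx1 r (R / L) m hr hρ hR'0
    (hR'R.trans (hR1.trans (min_le_right _ _))) hcl
  exact final_arith hA1 hκ hCq hCQ hL hR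
    measureReal_nonneg
    (Real.sqrt_nonneg _) hτ rfl measureReal_nonneg
    (hmain.trans (add_le_add hP (mul_le_mul_of_nonneg_left (measureReal_mono hUn) (by positivity))))
    (le_max_right _ _)

end Vale.Agent.P204.Full.Density
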