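import Vale.Agent.P204.Full.Density.Transfer
import Vale.Agent.P204.Full.Interfaces

/-!
The partner of a current of bounded density is square integrable.
-/

open scoped Manifold ContDiff Topology InnerProductSpace
open MeasureTheory Set Filter Metric

noncomputable section

namespace Vale.Agent.P204.Full.Density

universe u

set_option linter.unusedSectionVars false
set_option maxSynthPendingDepth 3

theorem bil_norm_le (b : Bil) : ‖b‖ ≤ ∑ p, ∑ q, |b (bvec p) (bvec q)| := by
  set S := ∑ p, ∑ q, |b (bvec p) (bvec q)| with hS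
  have hb : ∀ v : R4, v = ∑ p, v p • bvec p := fun v => by
    conv_lhs => rw [← (EuclideanSpace.basisFun (Fin 4) ℝ).sum_repr v]
    simp [bvec]
  have h2 : ∀ u v : R4, |b u v| ≤ S * ‖u‖ * ‖v‖ := fun u v => by
    conv_lhs => rw [hb u, hb v]
    simp only [map_sum, map_smul, sum_apply, smul_apply, smul_eq_mul, Finset.mul_sum]
    refine (Finset.abs_sum_le_sum_abs _ _).trans
      ((Finset.sum_le_sum fun q _ => Finset.abs_sum_le_sum_abs _ _).trans ?_)
    rw [Finset.sum_comm, hS, Finset.sum_mul, Finset.sum_mul]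
    refine Finset.sum_le_sum fun p _ => ?_
    rw [Finset.sum_mul, Finset.sum_mul]
    refine Finset.sum_le_sum fun q _ => ?_
    rw [abs_mul, abs_mul]
    have hp := PiLp.norm_apply_le u p
    have hq := PiLp.norm_apply_le v q
    rw [Real.norm_eq_abs] at hp hq
    calc |v q| * (|u p| * |b (bvec p) (bvec q)|) = |b (bvec p) (bvec q)| * |u p| * |v q| := by ring
      _ ≤ _ := by gcongr
  have hS0 : 0 ≤ S := Finset.sum_nonneg fun p _ => Finset.sum_nonneg fun q _ => abs_nonneg _
  refine b.opNorm_le_bound₂ hS0 fun u v => ?_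
  rw [Real.norm_eq_abs]
  exact h2 u v

variable {X : Type u} [TopologicalSpace X] [T2Space X] [CompactSpace X] [ChartedSpace R4 X]
  [IsManifold 𝓘(ℝ, R4) ∞ X] [MeasurableSpace X] [BorelSpace X] {G : Geo X}

/-- The components of a field. -/
def comp (G : Geo X) (j : Fin G.n × Fin 4 × Fin 4) (θ : X → Bil) (x : X) : ℝ :=
  G.rho j.1 x * view2 (G.c j.1) θ (G.c j.1 x) (bvec j.2.1) (bvec j.2.2)

/-- All components of a field. -/
def vec (G : Geo X) (θ : X → Bil) (x : X) : EuclideanSpace ℝ (Fin G.n × Fin 4 × Fin 4) :=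
  WithLp.toLp 2 fun j => comp G j θ x

theorem comp_cont (hB : BaseFacts G) (j : Fin G.n × Fin 4 × Fin 4) {θ : X → Bil} (hθ : Cont2 θ) :
    Continuous (comp G j θ) := by
  rw [continuous_iff_continuousAt]
  intro x
  by_cases hx : x ∈ (G.c j.1).source
  · have h1 : ContinuousAt (G.c j.1) x := (G.c j.1).continuousAt hx
    have h2 : ContinuousAt (fun z => view2 (G.c j.1) θ (G.c j.1 z)) x :=
      ContinuousAt.comp (g := view2 (G.c j.1) θ)
        ((hB.cont_view2 θ hθ _ (G.c_mem j.1)).continuousAt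
          ((G.c j.1).open_target.mem_nhds ((G.c j.1).map_source hx))) h1
    exact (hB.rho_smooth j.1).continuous.continuousAt.mul
      ((h2.clm_apply continuousAt_const).clm_apply continuousAt_const)
  · set K := (G.c j.1).symm '' closedBall (0 : R4) 2
    have hK : IsClosed K := (isCompact_image (isCompact_closedBall _ _) (by
      rw [G.c_target]; exact closedBall_subset_ball (by norm_num))).isClosed
    refine (continuousAt_const (y := (0 : ℝ))).congr ?_
    have hxK : x ∉ K := by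
      rintro ⟨y, hy, rfl⟩
      exact hx ((G.c j.1).map_target (by
        rw [G.c_target]; exact closedBall_subset_ball (by norm_num) hy))
    filter_upwards [hK.isOpen_compl.mem_nhds hxK] with z hz
    have : G.rho j.1 z = 0 := by
      by_contra h
      obtain ⟨hzs, hzn⟩ := hB.rho_supp j.1 z h
      exact hz ⟨G.c j.1 z, by simpa using hzn.le, (G.c j.1).left_inv hzs⟩
    simp [comp, this]

theorem vec_cont (hB : BaseFacts G) {θ : X → Bil} (hθ : Cont2 θ) : Continuous (vec G θ) :=
  (PiLp.continuous_toLp 2 _).comp (continuous_pi fun j => comp_cont hB j hθ)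

theorem comp_add (j : Fin G.n × Fin 4 × Fin 4) (θ η : X → Bil) (x : X) :
    comp G j (θ + η) x = comp G j θ x + comp G j η x := by
  simp [comp, view2, pullBil, mul_add]

theorem comp_smul (j : Fin G.n × Fin 4 × Fin 4) (a : ℝ) (θ : X → Bil) (x : X) :
    comp G j (a • θ) x = a * comp G j θ x := by
  simp [comp, view2, pullBil]; ring

theorem vec_add (θ η : X → Bil) : vec G (θ + η) = vec G θ + vec G η := by
  funext x; ext j; simp [vec, comp_add]

theorem vec_smul (a : ℝ) (θ : X → Bil) : vec G (a • θ) = a • vec G θ := by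
  funext x; ext j; simp [vec, comp_smul]

theorem vec_le (hB : BaseFacts G) (θ : X → Bil) (x : X) :
    ‖vec G θ x‖ ≤ Real.sqrt (Fintype.card (Fin G.n × Fin 4 × Fin 4)) * G.nrm2 θ x := by
  have h0 : 0 ≤ G.nrm2 θ x :=
    Finset.sum_nonneg fun i _ => mul_nonneg (hB.rho_nonneg i x) (norm_nonneg _)
  have hj : ∀ j, |comp G j θ x| ≤ G.nrm2 θ x := fun j => by
    refine le_trans ?_ (Finset.single_le_sum
      (fun i _ => mul_nonneg (hB.rho_nonneg i x) (norm_nonneg _)) (Finset.mem_univ j.1))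
    rw [comp, abs_mul, abs_of_nonneg (hB.rho_nonneg _ _)]
    refine mul_le_mul_of_nonneg_left ?_ (hB.rho_nonneg _ _)
    refine ((view2 (G.c j.1) θ (G.c j.1 x)).le_opNorm₂ _ _).trans (le_of_eq ?_)
    simp [bvec]
  rw [EuclideanSpace.norm_eq]
  refine (Real.sqrt_le_sqrt (Finset.sum_le_sum (g := fun _ => G.nrm2 θ x ^ 2) fun j _ => ?_)).trans
    (le_of_eq ?_)
  · rw [Real.norm_eq_abs]
    exact pow_le_pow_left₀ (abs_nonneg _) (hj j) 2
  · rw [Finset.sum_const, Finset.card_univ, nsmul_eq_mul, Real.sqrt_mul (Nat.cast_nonneg _),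
      Real.sqrt_sq h0]

theorem nrm_le (hB : BaseFacts G) (θ : X → Bil) (x : X) :
    G.nrm2 θ x ≤ (G.n : ℝ) * 16 * ‖vec G θ x‖ := by
  have hi : ∀ i, G.rho i x * ‖view2 (G.c i) θ (G.c i x)‖ ≤ 16 * ‖vec G θ x‖ := fun i => by
    refine (mul_le_mul_of_nonneg_left (bil_norm_le _) (hB.rho_nonneg i x)).trans ?_
    simp only [Finset.mul_sum]
    refine (Finset.sum_le_sum fun p _ => Finset.sum_le_sum
      (g := fun _ => ‖vec G θ x‖) fun q _ => ?_).trans (le_of_eq ?_)
    · refine le_of_eq_of_le ?_ (PiLp.norm_apply_le (vec G θ x) (i, p, q))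
      simp [vec, comp, abs_of_nonneg (hB.rho_nonneg i x)]
    · simp [Finset.sum_const]; ring
  refine (Finset.sum_le_sum fun i _ => hi i).trans (le_of_eq ?_)
  simp [mul_assoc]

/-- The smooth anti-invariant fields. -/
def antiSpace (G : Geo X) : Submodule ℝ (X → Bil) where
  carrier := {θ | Smooth2 θ ∧ G.Anti θ}
  zero_mem' := ⟨⟨fun x u v => by simp, fun x₀ =>
    (contDiffOn_const (c := (0 : Bil))).congr fun y _ => by simp [view2, pullBil_zero]⟩,
    fun x u v => by simp⟩
  add_mem' := by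
    rintro θ η ⟨⟨a1, a2⟩, a3⟩ ⟨⟨b1, b2⟩, b3⟩
    exact ⟨⟨fun x u v => by simp [a1 x u v, b1 x u v]; ring,
      fun x₀ => ((a2 x₀).add (b2 x₀)).congr fun y _ => by
        rw [view2, Pi.add_apply, ← pullCLM_apply, map_add]; rfl⟩,
      fun x u v => by simp [a3 x u v, b3 x u v]; ring⟩
  smul_mem' := by
    rintro a θ ⟨⟨a1, a2⟩, a3⟩
    exact ⟨⟨fun x u v => by simp [a1 x u v],
      fun x₀ => ((a2 x₀).const_smul a).congr fun y _ => by
        rw [view2, Pi.smul_apply, ← pullCLM_apply, map_smul]; rfl⟩,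
      fun x u v => by simp [a3 x u v]⟩

/-- A functional dominated by the square integral norm has a square integrable density. -/
theorem density_of_l2 (hB : BaseFacts G) (Q : (X → Bil) →ₗ[ℝ] ℝ) {K : ℝ} (hK : 0 ≤ K)
    (hQ : ∀ b, Smooth2 b → G.Anti b → |Q b| ≤ K * G.l2 b) :
    ∃ h : X → ℝ, (∀ x, 0 ≤ h x) ∧ MemLp h 2 G.vol ∧
      ∀ b, Smooth2 b → G.Anti b → |Q b| ≤ ∫ x, h x * G.nrm2 b x ∂G.vol := by
  have := hB.vol_finite
  set W := EuclideanSpace ℝ (Fin G.n × Fin 4 × Fin 4)
  have hmem : ∀ θ, Cont2 θ → MemLp (vec G θ) 2 G.vol := fun θ hθ =>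
    (vec_cont hB hθ).memLp_of_hasCompactSupport (HasCompactSupport.of_compactSpace _)
  have hcont : ∀ b : antiSpace G, Cont2 (b : X → Bil) := fun b => hB.smooth_cont _ b.2.1
  let Φ : antiSpace G →ₗ[ℝ] Lp W 2 G.vol :=
    { toFun := fun b => (hmem _ (hcont b)).toLp (vec G b)
      map_add' := fun a b => by
        rw [← MemLp.toLp_add]
        exact MemLp.toLp_congr _ _ (Eventually.of_forall fun x => by simp [vec_add])
      map_smul' := fun c b => by
        simp only [RingHom.id_apply]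
        rw [← MemLp.toLp_const_smul]
        exact MemLp.toLp_congr _ _ (Eventually.of_forall fun x => by simp [vec_smul]) }
  set C1 := (G.n : ℝ) * 16
  have hl2 : ∀ b : antiSpace G, G.l2 (b : X → Bil) ≤ C1 * ‖Φ b‖ := fun b => by
    have hint : Integrable (fun x => ‖vec G (b : X → Bil) x‖ ^ 2) G.vol :=
      ((vec_cont hB (hcont b)).norm.pow 2).integrable_of_hasCompactSupport
        (HasCompactSupport.of_compactSpace _)
    have e : ‖Φ b‖ ^ 2 = ∫ x, ‖vec G (b : X → Bil) x‖ ^ 2 ∂G.vol := by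
      rw [← real_inner_self_eq_norm_sq, L2.inner_def]
      refine integral_congr_ae ?_
      filter_upwards [(hmem _ (hcont b)).coeFn_toLp] with x hx
      show ⟪((hmem _ (hcont b)).toLp (vec G b) : X → W) x,
        ((hmem _ (hcont b)).toLp (vec G b) : X → W) x⟫_ℝ = _
      rw [hx, real_inner_self_eq_norm_sq]
    rw [Geo.l2, ← Real.sqrt_sq (norm_nonneg (Φ b)), e,
      ← Real.sqrt_sq (show 0 ≤ C1 by positivity), ← Real.sqrt_mul (sq_nonneg _),
      ← integral_const_mul]
    refine Real.sqrt_le_sqrt (integral_mono_of_nonneg (Eventually.of_forall fun x => sq_nonneg _)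
      (hint.const_mul _) (Eventually.of_forall fun x => ?_))
    show G.nrm2 (b : X → Bil) x ^ 2 ≤ C1 ^ 2 * ‖vec G (b : X → Bil) x‖ ^ 2
    rw [← mul_pow]
    exact pow_le_pow_left₀ (Finset.sum_nonneg fun i _ =>
      mul_nonneg (hB.rho_nonneg i x) (norm_nonneg _)) (nrm_le hB _ x) 2
  have hQb : ∀ b : antiSpace G, |Q (b : X → Bil)| ≤ K * C1 * ‖Φ b‖ := fun b =>
    (hQ _ b.2.1 b.2.2).trans ((mul_le_mul_of_nonneg_left (hl2 b) hK).trans_eq (mul_assoc _ _ _).symm)
  set Q' := Q.comp (antiSpace G).subtype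
  have hker : LinearMap.ker Φ ≤ LinearMap.ker Q' := fun b hb => by
    rw [LinearMap.mem_ker] at hb ⊢
    have := hQb b
    rw [hb, norm_zero, mul_zero, abs_nonpos_iff] at this
    exact this
  set ψ : LinearMap.range Φ →ₗ[ℝ] ℝ :=
    ((LinearMap.ker Φ).liftQ Q' hker).comp Φ.quotKerEquivRange.symm.toLinearMap
  have hψ : ∀ b, ψ ⟨Φ b, LinearMap.mem_range_self Φ b⟩ = Q (b : X → Bil) := fun b => by
    simp [ψ, Q', LinearMap.quotKerEquivRange_symm_apply_image]
  have hψb : ∀ z, ‖ψ z‖ ≤ K * C1 * ‖z‖ := by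
    rintro ⟨z, b, rfl⟩
    rw [hψ, Real.norm_eq_abs]
    exact hQb b
  obtain ⟨g, hg, -⟩ := exists_extension_norm_eq _ (ψ.mkContinuous _ hψb)
  set w := (InnerProductSpace.toDual ℝ (Lp W 2 G.vol)).symm g
  have hw : ∀ b : antiSpace G, Q (b : X → Bil) = ⟪w, Φ b⟫_ℝ := fun b => by
    rw [InnerProductSpace.toDual_symm_apply, ← hψ b,
      hg ⟨Φ b, LinearMap.mem_range_self Φ b⟩]
    rfl
  set C2 := Real.sqrt (Fintype.card (Fin G.n × Fin 4 × Fin 4))
  refine ⟨fun x => C2 * ‖(w : X → W) x‖, fun x => by positivity,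
    (Lp.memLp w).norm.const_mul C2, fun b hb hba => ?_⟩
  set b' : antiSpace G := ⟨b, hb, hba⟩
  rw [show b = (b' : X → Bil) from rfl, hw, L2.inner_def, ← Real.norm_eq_abs]
  refine (norm_integral_le_integral_norm _).trans (integral_mono_ae ?_ ?_ ?_)
  · exact (L2.integrable_inner w (Φ b')).norm
  · exact ((Lp.memLp w).norm.const_mul C2).integrable_mul
      ((hB.nrm2_cont _ (hcont b')).memLp_of_hasCompactSupport (p := 2)
        (HasCompactSupport.of_compactSpace _))
  · filter_upwards [(hmem _ (hcont b')).coeFn_toLp] with x hx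
    show ‖⟪(w : X → W) x, ((hmem _ (hcont b')).toLp (vec G b') : X → W) x⟫_ℝ‖ ≤ _
    rw [hx]
    refine (norm_inner_le_norm _ _).trans
      ((mul_le_mul_of_nonneg_left (vec_le hB _ x) (norm_nonneg _)).trans_eq ?_)
    ring

end Vale.Agent.P204.Full.Density
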