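import Vale.Agent.P204.Full.Density.Estimate
import Vale.Agent.P204.Full.Density.SquareInt

/-!
Module Density: bounded and almost monotone density, square integrable partner.
-/

open scoped Manifold ContDiff Topology
open MeasureTheory Set Filter Metric

noncomputable section

namespace Vale.Agent.P204.Full.Density

universe u

set_option linter.unusedSectionVars false
set_option maxSynthPendingDepth 3

variable {X : Type u} [TopologicalSpace X] [T2Space X] [CompactSpace X] [ChartedSpace R4 X]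
  [IsManifold 𝓘(ℝ, R4) ∞ X] [MeasurableSpace X] [BorelSpace X] {G : Geo X}

theorem dens_nonneg (D : PosCur G) (r : ℝ) (x : X) : 0 ≤ G.dens D.mu r x :=
  mul_nonneg (inv_nonneg.2 (sq_nonneg _)) measureReal_nonneg

/-- The two-scale inequality at every point. -/
theorem two_scale (hB : BaseFacts G) (hC : CurFacts G) {D : Pair G} (hS : ScaleBound D) :
    ∃ C R₁ : ℝ, 1 ≤ C ∧ 0 < R₁ ∧ R₁ ≤ 1 ∧ ∀ x r R, 0 < r → C * r ≤ R → R ≤ R₁ →
      G.dens D.mu r x ≤ C * G.dens D.mu R x + C * R * Real.sqrt (1 + G.nu D.mu r) := by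
  choose C R₁ hC1 hR0 hR1 h using fun i => chart_estimate hB hC hS i
  set R := Finset.univ.fold min (1 : ℝ) R₁
  have hRle : ∀ i, R ≤ R₁ i := fun i =>
    (Finset.le_fold_min (c := R)).1 le_rfl |>.2 i (Finset.mem_univ i)
  refine ⟨1 + ∑ i, C i, R, ?_, (Finset.lt_fold_min (c := (0 : ℝ))).2 ⟨one_pos, fun i _ => hR0 i⟩,
    ((Finset.le_fold_min (c := R)).1 le_rfl).1, fun x r S hr hrS hS1 => ?_⟩
  · have : 0 ≤ ∑ i, C i := Finset.sum_nonneg fun i _ => zero_le_one.trans (hC1 i)
    linarith
  obtain ⟨i, hxs, hx1⟩ := G.c_cover x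
  have hle : C i ≤ 1 + ∑ i, C i :=
    (Finset.single_le_sum (fun i _ => zero_le_one.trans (hC1 i)) (Finset.mem_univ i)).trans
      (le_add_of_nonneg_left zero_le_one)
  have hS0 : 0 ≤ S := le_trans (mul_nonneg ((zero_le_one.trans (hC1 i)).trans hle) hr.le) hrS
  refine (h i x hxs hx1 r S hr ((mul_le_mul_of_nonneg_right hle hr.le).trans hrS)
    (hS1.trans (hRle i))).trans (add_le_add (mul_le_mul_of_nonneg_right hle (dens_nonneg _ S x)) ?_)
  exact mul_le_mul_of_nonneg_right (mul_le_mul_of_nonneg_right hle hS0) (Real.sqrt_nonneg _)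

/-- Bounded density and almost monotonicity. -/
theorem bounded_monotone (hB : BaseFacts G) (hC : CurFacts G) {D : Pair G} (hS : ScaleBound D) :
    DensBounded D ∧ DensMonotone D := by
  have := D.finite_mu
  obtain ⟨C, R₁, hC1, hR0, hR1, h⟩ := two_scale hB hC hS
  set M := D.mu.real univ
  have hM : 0 ≤ M := measureReal_nonneg
  set a := C ^ 2 * M / R₁ ^ 2 with ha
  set b := C * R₁
  have hb : 0 ≤ b := by positivity
  have ha0 : 0 ≤ a := by positivity
  have hcoarse : ∀ x r, R₁ ≤ C * r → 0 < r → G.dens D.mu r x ≤ a := fun x r hr hr0 => by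
    have h1 : (r ^ 2)⁻¹ ≤ C ^ 2 / R₁ ^ 2 := by
      rw [inv_eq_one_div, div_le_div_iff₀ (by positivity) (by positivity), one_mul, ← mul_pow]
      exact pow_le_pow_left₀ hR0.le hr 2
    calc G.dens D.mu r x ≤ C ^ 2 / R₁ ^ 2 * M :=
          mul_le_mul h1 (measureReal_mono (subset_univ _)) measureReal_nonneg (by positivity)
      _ = a := by rw [ha]; ring
  have hR1M : ∀ x, C * G.dens D.mu R₁ x ≤ a := fun x => by
    calc C * G.dens D.mu R₁ x ≤ C * ((R₁ ^ 2)⁻¹ * M) := mul_le_mul_of_nonneg_left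
          (mul_le_mul_of_nonneg_left (measureReal_mono (subset_univ _)) (by positivity))
          (by linarith)
      _ ≤ C ^ 2 * ((R₁ ^ 2)⁻¹ * M) :=
          mul_le_mul_of_nonneg_right (by nlinarith) (by positivity)
      _ = a := by rw [ha]; ring
  have hnu : ∀ s, 0 < s → G.nu D.mu s ≤ (1 + a + b) ^ 2 := fun s hs => by
    set t := Real.sqrt (1 + G.nu D.mu s) with ht
    have hν := nu_nonneg D.toPosCur s
    have ht2 : t ^ 2 = 1 + G.nu D.mu s := Real.sq_sqrt (by linarith)
    have ht1 : 1 ≤ t := Real.one_le_sqrt.2 (by linarith)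
    have hsup : G.nu D.mu s ≤ a + b * t := by
      refine Real.sSup_le ?_ (by positivity)
      rintro _ ⟨x, r, hsr, hr1, rfl⟩
      have hr0 : 0 < r := hs.trans_le hsr
      rcases le_total R₁ (C * r) with hc | hc
      · exact (hcoarse x r hc hr0).trans (le_add_of_nonneg_right (by positivity))
      · refine (h x r R₁ hr0 hc le_rfl).trans (add_le_add (hR1M x) ?_)
        exact mul_le_mul_of_nonneg_left
          (Real.sqrt_le_sqrt (by linarith [nu_anti D.toPosCur x hs hsr hr1])) hb
    have h2 : t ≤ 1 + a + b := by nlinarith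
    calc G.nu D.mu s ≤ t ^ 2 := by linarith
      _ ≤ _ := pow_le_pow_left₀ (by linarith) h2 2
  set T := Real.sqrt (1 + (1 + a + b) ^ 2)
  have hT : 1 ≤ T := Real.one_le_sqrt.2 (by nlinarith)
  refine ⟨⟨a + b * T, fun x r hr hr1 => ?_⟩, C * T, R₁, one_le_mul_of_one_le_of_one_le hC1 hT,
    hR0, fun x r R hr hrR hR => ?_⟩
  · rcases le_total R₁ (C * r) with hc | hc
    · exact (hcoarse x r hc hr).trans (le_add_of_nonneg_right (by positivity))
    · exact (h x r R₁ hr hc le_rfl).trans (add_le_add (hR1M x)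
        (mul_le_mul_of_nonneg_left (Real.sqrt_le_sqrt (by linarith [hnu r hr])) hb))
  · have hCr : C * r ≤ R := le_trans
      (mul_le_mul_of_nonneg_right (le_mul_of_one_le_right (by linarith) hT) hr.le) hrR
    have hR0' : 0 ≤ R := le_trans (by positivity) hCr
    refine (h x r R hr hCr hR).trans (add_le_add
      (mul_le_mul_of_nonneg_right (le_mul_of_one_le_right (by linarith) hT) (dens_nonneg _ R x)) ?_)
    calc C * R * Real.sqrt (1 + G.nu D.mu r) ≤ C * R * T :=
          mul_le_mul_of_nonneg_left (Real.sqrt_le_sqrt (by linarith [hnu r hr])) (by positivity)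
      _ = _ := by ring

/-- The partner is square integrable. -/
theorem square_integrable (hB : BaseFacts G) {D : Pair G} (hS : ScaleBound D)
    (hD : DensBounded D) : QSquareIntegrable D := by
  obtain ⟨k, Cs, s1, hs1, hQ⟩ := hS
  obtain ⟨Cd, hCd⟩ := hD
  obtain ⟨Cl, hl⟩ := hB.l2_hn
  set K := |Cs| * Real.sqrt (1 + max Cd 0)
  refine density_of_l2 hB D.Q (K := K * max Cl 0) (by positivity) fun b hb hba => ?_
  have hev : ∀ᶠ s in 𝓝[>] (0 : ℝ), |D.Q b| ≤ K * G.sk k s b := by
    filter_upwards [Ioo_mem_nhdsGT hs1] with s hs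
    have hν : G.nu D.mu s ≤ max Cd 0 := by
      refine Real.sSup_le ?_ (le_max_right _ _)
      rintro _ ⟨x, r, hsr, hr1, rfl⟩
      exact (hCd x r (hs.1.trans_le hsr) hr1).trans (le_max_left _ _)
    have hsk : 0 ≤ G.sk k s b := Finset.sum_nonneg fun l _ =>
      mul_nonneg (pow_nonneg hs.1.le l) (Finset.sum_nonneg fun _ _ => Real.sqrt_nonneg _)
    refine (hQ s hs.1 hs.2.le b hb hba).trans (mul_le_mul_of_nonneg_right ?_ hsk)
    exact mul_le_mul (le_abs_self _) (Real.sqrt_le_sqrt (by linarith)) (Real.sqrt_nonneg _)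
      (abs_nonneg _)
  have hlim : Tendsto (fun s => K * G.sk k s b) (𝓝[>] (0 : ℝ)) (𝓝 (K * G.hn 0 b)) := by
    refine Tendsto.const_mul K ?_
    have hc : Continuous fun s => G.sk k s b :=
      continuous_finsetSum _ fun l _ => (continuous_pow l).mul continuous_const
    have h0 : G.sk k 0 b = G.hn 0 b := by
      rw [Geo.sk, Finset.sum_eq_single 0 (fun l _ hl => by simp [zero_pow hl]) (by simp)]
      simp
    rw [← h0]
    exact (hc.tendsto 0).mono_left nhdsWithin_le_nhds
  calc |D.Q b| ≤ K * G.hn 0 b := ge_of_tendsto hlim hev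
    _ ≤ K * (max Cl 0 * G.l2 b) := mul_le_mul_of_nonneg_left
        ((hl b hb).2.trans (mul_le_mul_of_nonneg_right (le_max_left _ _) (Real.sqrt_nonneg _)))
        (by positivity)
    _ = _ := (mul_assoc _ _ _).symm

/-- The module theorem. -/
theorem density_of (hBase : BaseStatement.{u}) (hCur : CurStatement.{u}) :
    DensityStatement.{u} := by
  intro X _ _ _ _ _ _ _ G D hS
  obtain ⟨h1, h2⟩ := bounded_monotone (hBase X G) (hCur X G) hS
  exact ⟨h1, h2, square_integrable (hBase X G) hS h1⟩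

end Vale.Agent.P204.Full.Density
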