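import Mathlib

/-!
Profile of the test potential: `t * prof t` increases from `0` to `1`, is equal to `t` near the origin
and constant for `t ≥ 3/4`. `phi N R` is the telescoped difference of two scales.
-/

open scoped ContDiff Topology
open Real Set Filter

noncomputable section

namespace Vale.Agent.P204.Full.Density

def trans01 (t : ℝ) : ℝ := smoothTransition (4 * t - 2)

/-- The profile. -/
def prof (t : ℝ) : ℝ := 1 - trans01 t + trans01 t / t

/-- Derivative of `t * prof t`. -/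
def slope01 (t : ℝ) : ℝ := 1 - trans01 t + deriv trans01 t * (1 - t)

theorem trans01_smooth : ContDiff ℝ ∞ trans01 :=
  smoothTransition.contDiff.comp ((contDiff_const.mul contDiff_id).sub contDiff_const)

theorem trans01_zero {t : ℝ} (ht : t ≤ 1 / 2) : trans01 t = 0 :=
  smoothTransition.zero_of_nonpos (by linarith)

theorem trans01_one {t : ℝ} (ht : 3 / 4 ≤ t) : trans01 t = 1 :=
  smoothTransition.one_of_one_le (by linarith)

theorem prof_eq_one {t : ℝ} (ht : t ≤ 1 / 2) : prof t = 1 := by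
  simp [prof, trans01_zero ht]

theorem prof_eq_inv {t : ℝ} (ht : 3 / 4 ≤ t) : prof t = 1 / t := by
  simp [prof, trans01_one ht]

theorem prof_smooth : ContDiff ℝ ∞ prof := by
  rw [contDiff_iff_contDiffAt]
  intro t
  rcases lt_or_ge t (1 / 2) with h | h
  · refine (contDiffAt_const (c := (1 : ℝ))).congr_of_eventuallyEq ?_
    filter_upwards [eventually_lt_nhds h] with u hu
    exact prof_eq_one hu.le
  · exact (contDiffAt_const.sub trans01_smooth.contDiffAt).add
      (trans01_smooth.contDiffAt.div contDiffAt_id (by simp; linarith))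

theorem trans01_diff (t : ℝ) : HasDerivAt trans01 (deriv trans01 t) t :=
  (trans01_smooth.differentiable (by simp) t).hasDerivAt

theorem mul_prof (t : ℝ) : t * prof t = t * (1 - trans01 t) + trans01 t := by
  rcases eq_or_ne t 0 with rfl | ht
  · simp [trans01_zero]
  · unfold prof
    field_simp

theorem hasDerivAt_mul_prof (t : ℝ) : HasDerivAt (fun u => u * prof u) (slope01 t) t := by
  rw [show (fun u => u * prof u) = fun u => u * (1 - trans01 u) + trans01 u from funext mul_prof]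
  refine (((hasDerivAt_id t).mul ((trans01_diff t).const_sub 1)).add (trans01_diff t)).congr_deriv ?_
  simp [slope01]
  ring

theorem slope01_eq (t : ℝ) : slope01 t = prof t + t * deriv prof t :=
  (hasDerivAt_mul_prof t).unique
    (((hasDerivAt_id t).mul (prof_smooth.differentiable (by simp) t).hasDerivAt).congr_deriv
      (by simp))

theorem deriv_trans01_nonneg (t : ℝ) : 0 ≤ deriv trans01 t :=
  (smoothTransition.monotone.comp
    (fun a b hab => by linarith : Monotone fun u : ℝ => 4 * u - 2)).deriv_nonneg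

theorem slope01_zero {t : ℝ} (ht : 3 / 4 ≤ t) : slope01 t = 0 := by
  rcases ht.eq_or_lt with rfl | ht'
  · have h : IsLocalMax trans01 (3 / 4) := Eventually.of_forall fun u => by
      rw [trans01_one le_rfl]; exact smoothTransition.le_one _
    simp [slope01, trans01_one, h.deriv_eq_zero]
  · have h : deriv trans01 t = 0 := by
      rw [EventuallyEq.deriv_eq (f := fun _ => (1 : ℝ))
        (by filter_upwards [eventually_gt_nhds ht'] with u hu using trans01_one hu.le)]
      simp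
    simp [slope01, trans01_one ht, h]

theorem slope01_nonneg (t : ℝ) : 0 ≤ slope01 t := by
  rcases le_or_gt (3 / 4) t with h | h
  · exact (slope01_zero h).ge
  · have h1 : trans01 t ≤ 1 := smoothTransition.le_one _
    exact add_nonneg (by linarith) (mul_nonneg (deriv_trans01_nonneg t) (by linarith))

theorem slope01_one {t : ℝ} (ht : t ≤ 1 / 2) : slope01 t = 1 := by
  have h : IsLocalMin trans01 t := Eventually.of_forall fun u => by
    rw [trans01_zero ht]; exact smoothTransition.nonneg _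
  simp [slope01, trans01_zero ht, h.deriv_eq_zero]

theorem slope01_bound : ∃ C : ℝ, 1 ≤ C ∧ ∀ t, 0 ≤ t → slope01 t ≤ C ∧ t * slope01 t ≤ C := by
  have hc : Continuous slope01 :=
    (continuous_const.sub trans01_smooth.continuous).add
      ((trans01_smooth.continuous_deriv (by simp)).mul (continuous_const.sub continuous_id))
  obtain ⟨C, hC⟩ := (isCompact_Icc (a := (0 : ℝ)) (b := 1)).bddAbove_image hc.continuousOn
  refine ⟨max C 1, le_max_right _ _, fun t ht => ?_⟩
  rcases le_or_gt t 1 with h | h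
  · have h1 : slope01 t ≤ max C 1 := (hC ⟨t, ⟨ht, h⟩, rfl⟩).trans (le_max_left _ _)
    exact ⟨h1, (mul_le_of_le_one_left (slope01_nonneg t) h).trans h1⟩
  · have h1 : (0 : ℝ) ≤ max C 1 := zero_le_one.trans (le_max_right _ _)
    simp [slope01_zero (show 3 / 4 ≤ t by linarith), h1]

theorem mul_prof_mono : Monotone fun t => t * prof t :=
  monotone_of_deriv_nonneg (fun t => (hasDerivAt_mul_prof t).differentiableAt)
    fun t => by rw [(hasDerivAt_mul_prof t).deriv]; exact slope01_nonneg t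

theorem mul_prof_le {t : ℝ} (ht : 0 ≤ t) : 0 ≤ t * prof t ∧ t * prof t ≤ 1 := by
  refine ⟨by simpa using mul_prof_mono ht, ?_⟩
  rw [mul_prof]
  have h1 : trans01 t ≤ 1 := smoothTransition.le_one _
  rcases le_or_gt t 1 with h | h
  · nlinarith
  · simp [trans01_one (show 3 / 4 ≤ t by linarith)]

/-- The telescoped potential. -/
def phi (N R S : ℝ) : ℝ := R⁻¹ ^ 2 * (N * prof (N * (S * R⁻¹ ^ 2)) - prof (S * R⁻¹ ^ 2))

/-- Derivative of `phi`. -/
def phiDer (N R S : ℝ) : ℝ :=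
  R⁻¹ ^ 2 * (R⁻¹ ^ 2 * (N * N * deriv prof (N * (S * R⁻¹ ^ 2)) - deriv prof (S * R⁻¹ ^ 2)))

theorem hasDerivAt_phi (N R S : ℝ) : HasDerivAt (phi N R) (phiDer N R S) S := by
  have hd : ∀ t, HasDerivAt prof (deriv prof t) t := fun t =>
    (prof_smooth.differentiable (by simp) t).hasDerivAt
  have h1 := (hd (N * (S * R⁻¹ ^ 2))).comp S ((((hasDerivAt_id S).mul_const (R⁻¹ ^ 2)).const_mul N))
  have h2 := (hd (S * R⁻¹ ^ 2)).comp S ((hasDerivAt_id S).mul_const (R⁻¹ ^ 2))
  refine (((h1.const_mul N).sub h2).const_mul (R⁻¹ ^ 2)).congr_deriv ?_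
  simp only [phiDer]
  ring

theorem phi_add_mul_der (N R S : ℝ) :
    phi N R S + S * phiDer N R S =
      R⁻¹ ^ 2 * (N * slope01 (N * (S * R⁻¹ ^ 2)) - slope01 (S * R⁻¹ ^ 2)) := by
  rw [slope01_eq, slope01_eq, phi, phiDer]
  ring

theorem phi_nonneg {N R S : ℝ} (hN : 1 ≤ N) (hS : 0 ≤ S) : 0 ≤ phi N R S := by
  set t := S * R⁻¹ ^ 2 with ht
  refine mul_nonneg (sq_nonneg _) ?_
  rw [← ht]
  have ht0 : 0 ≤ t := mul_nonneg hS (sq_nonneg _)
  rcases ht0.eq_or_lt with h | h
  · simp [← h, prof_eq_one]; linarith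
  · have h1 : t * prof t ≤ N * t * prof (N * t) := mul_prof_mono (le_mul_of_one_le_left ht0 hN)
    refine le_of_mul_le_mul_left ?_ h
    linarith [mul_sub t (N * prof (N * t)) (prof t)]

theorem phi_bounds : ∃ C : ℝ, 1 ≤ C ∧ ∀ N R S : ℝ, 1 ≤ N → 0 < R → 0 ≤ S →
    S * phi N R S ≤ 1 ∧
    -(C * R⁻¹ ^ 2) ≤ phi N R S + S * phiDer N R S ∧
    |S * (phi N R S + S * phiDer N R S)| ≤ C := by
  obtain ⟨C, hC1, hC⟩ := slope01_bound
  refine ⟨C, hC1, fun N R S hN hR hS => ?_⟩
  rw [phi_add_mul_der, phi]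
  set t := S * R⁻¹ ^ 2 with ht
  have ht0 : 0 ≤ t := mul_nonneg hS (sq_nonneg _)
  have hNt : 0 ≤ N * t := mul_nonneg (by linarith) ht0
  obtain ⟨a1, a2⟩ := hC t ht0
  obtain ⟨-, b2⟩ := hC (N * t) hNt
  have p1 := (mul_prof_le ht0).1
  have p2 := (mul_prof_le hNt).2
  have q1 := slope01_nonneg t
  have q2 := slope01_nonneg (N * t)
  refine ⟨?_, ?_, ?_⟩
  · rw [← mul_assoc, ← ht]; linarith [mul_sub t (N * prof (N * t)) (prof t)]
  · have : 0 ≤ N * slope01 (N * t) := mul_nonneg (by linarith) q2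
    calc -(C * R⁻¹ ^ 2) = R⁻¹ ^ 2 * (-C) := by ring
      _ ≤ _ := mul_le_mul_of_nonneg_left (by linarith) (sq_nonneg _)
  · rw [← mul_assoc, ← ht, mul_sub, abs_le]
    constructor <;> nlinarith [mul_nonneg hNt q2, mul_nonneg ht0 q1]

theorem phi_core {N R S : ℝ} (hN : 1 ≤ N) (hS : 0 ≤ S) (h : N * (S * R⁻¹ ^ 2) ≤ 1 / 2) :
    phi N R S = R⁻¹ ^ 2 * (N - 1) ∧ phi N R S + S * phiDer N R S = R⁻¹ ^ 2 * (N - 1) := by
  have h' : S * R⁻¹ ^ 2 ≤ 1 / 2 :=
    (le_mul_of_one_le_left (mul_nonneg hS (sq_nonneg _)) hN).trans h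
  constructor
  · rw [phi, prof_eq_one h, prof_eq_one h', mul_one]
  · rw [phi_add_mul_der, slope01_one h, slope01_one h', mul_one]

theorem phi_outer {N R S : ℝ} (hN : 1 ≤ N) (hR : 0 < R) (hS : R ^ 2 ≤ S) :
    phi N R S = 0 ∧ phiDer N R S = 0 := by
  have h1 : ∀ S, 3 / 4 * R ^ 2 ≤ S → phi N R S = 0 := fun S hS => by
    have h2 : 3 / 4 ≤ S * R⁻¹ ^ 2 := by
      rw [inv_pow, ← div_eq_mul_inv, le_div_iff₀ (by positivity)]; linarith
    have h0 : 0 < S * R⁻¹ ^ 2 := by linarith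
    rw [phi, prof_eq_inv h2, prof_eq_inv (h2.trans (le_mul_of_one_le_left h0.le hN))]
    field_simp
    ring
  have hev : phi N R =ᶠ[𝓝 S] fun _ => (0 : ℝ) := by
    filter_upwards [eventually_gt_nhds (show 3 / 4 * R ^ 2 < S by nlinarith)] with u hu
    exact h1 u hu.le
  refine ⟨h1 S (by nlinarith), ?_⟩
  rw [← (hasDerivAt_phi N R S).deriv, hev.deriv_eq, deriv_const]

/-- Telescoping into single scale pieces. -/
theorem phi_sum (R : ℝ) (S : ℝ) : ∀ m : ℕ,
    ∑ j ∈ Finset.range m, phi 4 (R / 2 ^ j) S = phi (4 ^ m) R S := by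
  intro m
  induction m with
  | zero => simp [phi]
  | succ m ih =>
    rw [Finset.sum_range_succ, ih, phi, phi, phi]
    have h : (R / 2 ^ m)⁻¹ ^ 2 = R⁻¹ ^ 2 * 4 ^ m := by
      rw [inv_div, div_pow, ← pow_mul, mul_comm m 2, pow_mul, div_eq_inv_mul, inv_pow]; norm_num
    rw [h, show 4 * (S * (R⁻¹ ^ 2 * 4 ^ m)) = 4 ^ (m + 1) * (S * R⁻¹ ^ 2) by ring,
      show S * (R⁻¹ ^ 2 * 4 ^ m) = 4 ^ m * (S * R⁻¹ ^ 2) by ring]
    ring

end Vale.Agent.P204.Full.Density
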