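import Vale.Agent.P204.Full.Defs
import Vale.Agent.P204.Full.Density.Profile

/-!
The test potential `phi (g z z) • om z` of a linear Hermitian structure and its differential.
-/

open scoped Manifold ContDiff Topology
open Set Filter

noncomputable section

namespace Vale.Agent.P204.Full.Density

/-- The metric `om(u, Jv)`. -/
def gOf (om : Bil) (J : Endo) : Bil := om.bilinearComp (ContinuousLinearMap.id ℝ R4) J

/-- The potential. -/
def potCov (N R : ℝ) (om g : Bil) (z : R4) : Cov := phi N R (g z z) • om z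

/-- Its differential. -/
def potForm (N R : ℝ) (om g : Bil) (z : R4) : Bil :=
  (2 * phi N R (g z z)) • om + (2 * phiDer N R (g z z)) • wedgeCov (g z) (om z)

/-- A linear Hermitian structure. -/
structure Herm (om : Bil) (J : Endo) : Prop where
  alt : IsAlt om
  sq : ∀ v, J (J v) = -v
  inv : ∀ u v, om (J u) (J v) = om u v
  pos : ∀ v, v ≠ 0 → 0 < om v (J v)

theorem wedgeCov_apply (α β : Cov) (u v : R4) : wedgeCov α β u v = α u * β v - β u * α v := by
  simp [wedgeCov]

theorem potForm_apply (N R : ℝ) (om g : Bil) (z u v : R4) :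
    potForm N R om g z u v = 2 * phi N R (g z z) * om u v
      + 2 * phiDer N R (g z z) * (g z u * om z v - om z u * g z v) := by
  simp [potForm, wedgeCov_apply]

theorem potForm_alt (N R : ℝ) {om : Bil} (hom : IsAlt om) (g : Bil) (z : R4) :
    IsAlt (potForm N R om g z) := fun u v => by
  rw [potForm_apply, potForm_apply, hom u v]; ring

theorem d1At_potCov (N R : ℝ) {om g : Bil} (hom : IsAlt om) (hg : ∀ u v, g u v = g v u)
    (y₀ y : R4) :
    d1At (fun w => potCov N R om g (w - y₀)) y = potForm N R om g (y - y₀) := by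
  have hz : HasFDerivAt (fun w : R4 => w - y₀) (ContinuousLinearMap.id ℝ R4) y :=
    (hasFDerivAt_id y).sub_const y₀
  have hS := g.hasFDerivAt_of_bilinear hz hz
  have h := ((hasDerivAt_phi N R _).comp_hasFDerivAt y hS).smul (om.hasFDerivAt.comp y hz)
  ext u v
  have h' : HasFDerivAt (fun w => potCov N R om g (w - y₀)) _ y := h
  rw [d1At, h'.fderiv, potForm_apply]
  simp
  rw [hom v u, hg u y, hg u y₀, hg v y, hg v y₀]
  ring

theorem phi_scale (N R S : ℝ) : phi N R S = R⁻¹ ^ 2 * phi N 1 (S * R⁻¹ ^ 2) := by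
  simp [phi]

theorem phiDer_scale (N R S : ℝ) :
    phiDer N R S = R⁻¹ ^ 2 * (R⁻¹ ^ 2 * phiDer N 1 (S * R⁻¹ ^ 2)) := by
  simp [phiDer]

theorem potCov_scale (N R : ℝ) (om g : Bil) (z : R4) :
    potCov N R om g z = R⁻¹ • potCov N 1 om g (R⁻¹ • z) := by
  ext v
  simp [potCov, phi_scale N R]
  ring_nf

theorem potForm_scale (N R : ℝ) (om g : Bil) (z : R4) :
    potForm N R om g z = R⁻¹ ^ 2 • potForm N 1 om g (R⁻¹ • z) := by
  ext u v
  simp [potForm_apply, phi_scale N R, phiDer_scale N R]
  ring_nf

namespace Herm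

variable {om : Bil} {J : Endo} (h : Herm om J)
include h
set_option linter.unusedSectionVars false

theorem g_symm (u v : R4) : gOf om J u v = gOf om J v u := by
  simp only [gOf, ContinuousLinearMap.bilinearComp_apply, ContinuousLinearMap.id_apply]
  rw [← h.inv u (J v), h.sq v, map_neg, h.alt (J u) v, neg_neg]

theorem g_pos {v : R4} (hv : v ≠ 0) : 0 < gOf om J v v := h.pos v hv

theorem g_nonneg (v : R4) : 0 ≤ gOf om J v v := by
  rcases eq_or_ne v 0 with rfl | hv
  · simp
  · exact (h.g_pos hv).le

theorem g_J (u v : R4) : gOf om J u (J v) = -om u v := by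
  simp [gOf, h.sq]

theorem om_J (u v : R4) : om u (J v) = gOf om J u v := rfl

theorem potForm_inv (N R : ℝ) (z : R4) :
    pullBil J (potForm N R om (gOf om J) z) = potForm N R om (gOf om J) z := by
  ext u v
  simp only [pullBil, ContinuousLinearMap.bilinearComp_apply, potForm_apply, h.inv, h.g_J, h.om_J]
  ring

/-- The quadratic form of the test form. -/
theorem potForm_quad (N R : ℝ) (z v : R4) :
    potForm N R om (gOf om J) z v (J v) = 2 * phi N R (gOf om J z z) * gOf om J v v
      + 2 * phiDer N R (gOf om J z z) * (gOf om J z v ^ 2 + om z v ^ 2) := by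
  simp only [potForm_apply, h.g_J, h.om_J]
  ring

theorem cauchy (z v : R4) :
    gOf om J z v ^ 2 + om z v ^ 2 ≤ gOf om J z z * gOf om J v v := by
  rcases eq_or_ne z 0 with rfl | hz
  · simp
  have hw := h.g_nonneg (gOf om J z z • v - gOf om J z v • z - om z v • J z)
  set g := gOf om J with hg
  have e1 : g (J z) (J z) = g z z := by rw [hg, h.g_J, h.alt, neg_neg, h.g_symm]; rfl
  have e2 : ∀ w, g (J z) w = om z w := fun w => by
    rw [hg, h.g_symm, h.g_J, h.alt, neg_neg]
  have e3 : om z z = 0 := by have := h.alt z z; linarith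
  have e4 : g z (J z) = 0 := by rw [hg, h.g_J, e3, neg_zero]
  simp only [map_sub, map_smul, sub_apply, smul_apply, smul_eq_mul] at hw
  rw [e1, e4, e2 z, e2 v, e3, hg, h.g_symm v (J z), ← hg, e2 v] at hw
  rw [show g v z = g z v from h.g_symm v z] at hw
  have hG : 0 < g z z := h.g_pos hz
  by_contra hc
  nlinarith [mul_pos hG (sub_pos.2 (not_le.1 hc))]

theorem quad_lower {N R K : ℝ} (z v : R4) (h1 : -K ≤ phi N R (gOf om J z z))
    (h2 : -K ≤ phi N R (gOf om J z z) + gOf om J z z * phiDer N R (gOf om J z z)) :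
    -(2 * K * gOf om J v v) ≤ potForm N R om (gOf om J) z v (J v) := by
  rw [h.potForm_quad]
  have hb := h.cauchy z v
  have hv := h.g_nonneg v
  rcases le_total 0 (phiDer N R (gOf om J z z)) with hd | hd
  · nlinarith [mul_nonneg hd (add_nonneg (sq_nonneg (gOf om J z v)) (sq_nonneg (om z v)))]
  · nlinarith [mul_le_mul_of_nonpos_left hb hd]

theorem quad_upper {N R C : ℝ} (z v : R4) (hS : 0 ≤ gOf om J z z)
    (h1 : gOf om J z z * phi N R (gOf om J z z) ≤ C)
    (h2 : gOf om J z z * (phi N R (gOf om J z z) + gOf om J z z * phiDer N R (gOf om J z z)) ≤ C) :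
    gOf om J z z * potForm N R om (gOf om J) z v (J v) ≤ 2 * C * gOf om J v v := by
  rw [h.potForm_quad]
  have hb := h.cauchy z v
  have hv := h.g_nonneg v
  rcases le_total 0 (phiDer N R (gOf om J z z)) with hd | hd
  · nlinarith [mul_le_mul_of_nonneg_left (mul_le_mul_of_nonneg_left hb hd) hS]
  · nlinarith [mul_nonpos_of_nonpos_of_nonneg (mul_nonpos_of_nonneg_of_nonpos hS hd)
      (add_nonneg (sq_nonneg (gOf om J z v)) (sq_nonneg (om z v)))]

theorem quad_core {N R : ℝ} (z v : R4)
    (he : phi N R (gOf om J z z) + gOf om J z z * phiDer N R (gOf om J z z)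
      = phi N R (gOf om J z z)) :
    potForm N R om (gOf om J) z v (J v) = 2 * phi N R (gOf om J z z) * gOf om J v v := by
  rw [h.potForm_quad]
  rcases eq_or_ne z 0 with rfl | hz
  · simp
  · have : phiDer N R (gOf om J z z) = 0 := by
      have h1 : gOf om J z z * phiDer N R (gOf om J z z) = 0 := by linarith
      exact (mul_eq_zero.1 h1).resolve_left (h.g_pos hz).ne'
    simp [this]

/-- The test form evaluated on a perturbed complex structure `v ↦ Jv + w`. -/
theorem perturbed {N R K : ℝ} (hK : 0 ≤ K) (z v w : R4) (h1 : -K ≤ phi N R (gOf om J z z))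
    (h2 : -K ≤ phi N R (gOf om J z z) + gOf om J z z * phiDer N R (gOf om J z z)) :
    potForm N R om (gOf om J) z v (J v) / 2 - potForm N R om (gOf om J) z (J w) (J (J w)) / 2
        - 2 * K * (gOf om J v v + gOf om J (J w) (J w))
      ≤ potForm N R om (gOf om J) z v (J v + w) := by
  set θ := potForm N R om (gOf om J) z with hθ
  have hl := h.quad_lower z (v - J w) h1 h2
  have hg := h.g_nonneg (v + J w)
  have hsym : θ (J w) (J v) = θ v (J (J w)) := by
    have hinv := DFunLike.congr_fun (DFunLike.congr_fun (h.potForm_inv N R z) (J w)) (J v)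
    simp only [pullBil, ContinuousLinearMap.bilinearComp_apply] at hinv
    rw [← hθ] at hinv
    rw [← hinv, h.sq v, map_neg, potForm_alt N R h.alt (gOf om J) z v (J (J w))]
  simp only [← hθ, map_sub, sub_apply, h.g_symm (J w) v] at hl
  simp only [map_add, add_apply, h.g_symm (J w) v] at hg
  rw [hsym, h.sq w] at hl
  simp only [map_neg] at hl
  rw [map_add, h.sq w, map_neg]
  nlinarith [mul_nonneg hK hg]

end Herm

end Vale.Agent.P204.Full.Density
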