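import Vale.Agent.P204.Full.Density.Transfer
import Vale.Agent.P204.Full.Density.Model

/-!
The exact test forms of one chart and the scaled bound for their anti-invariant parts.
-/

open scoped Manifold ContDiff Topology
open MeasureTheory Set Filter Metric

noncomputable section

namespace Vale.Agent.P204.Full.Density

universe u

set_option linter.unusedSectionVars false
set_option maxSynthPendingDepth 3

theorem contDiff_phi (N R : ℝ) : ContDiff ℝ ∞ (phi N R) :=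
  contDiff_const.mul ((contDiff_const.mul (prof_smooth.comp
    (contDiff_const.mul (contDiff_id.mul contDiff_const)))).sub
    (prof_smooth.comp (contDiff_id.mul contDiff_const)))

theorem contDiff_phiDer (N R : ℝ) : ContDiff ℝ ∞ (phiDer N R) := by
  have h : ContDiff ℝ ∞ (deriv prof) := (contDiff_infty_iff_deriv.1 prof_smooth).2
  exact contDiff_const.mul (contDiff_const.mul ((contDiff_const.mul
    (h.comp (contDiff_const.mul (contDiff_id.mul contDiff_const)))).sub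
    (h.comp (contDiff_id.mul contDiff_const))))

theorem contDiff_potCov (N R : ℝ) (om g : Bil) (y₀ : R4) :
    ContDiff ℝ ∞ fun y => potCov N R om g (y - y₀) := by
  have hz : ContDiff ℝ ∞ fun y : R4 => y - y₀ := contDiff_id.sub contDiff_const
  exact ((contDiff_phi N R).comp ((g.contDiff.comp hz).clm_apply hz)).smul (om.contDiff.comp hz)

theorem contDiff_potForm (N R : ℝ) :
    ContDiff ℝ ∞ fun p : (Bil × Bil) × R4 => potForm N R p.1.1 p.1.2 p.2 := by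
  refine contDiff_clm_apply_iff.2 fun u => contDiff_clm_apply_iff.2 fun v => ?_
  simp only [potForm_apply]
  have ho : ContDiff ℝ ∞ fun p : (Bil × Bil) × R4 => p.1.1 := contDiff_fst.fst
  have hg : ContDiff ℝ ∞ fun p : (Bil × Bil) × R4 => p.1.2 := contDiff_fst.snd
  have hz : ContDiff ℝ ∞ fun p : (Bil × Bil) × R4 => p.2 := contDiff_snd
  have hS := (hg.clm_apply hz).clm_apply hz
  have ev : ∀ (f : (Bil × Bil) × R4 → Bil), ContDiff ℝ ∞ f → ∀ w : R4,
      ContDiff ℝ ∞ fun p : (Bil × Bil) × R4 => f p p.2 w := fun f hf w =>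
    (hf.clm_apply hz).clm_apply contDiff_const
  exact ((contDiff_const.mul ((contDiff_phi N R).comp hS)).mul
    ((ho.clm_apply contDiff_const).clm_apply contDiff_const)).add
    ((contDiff_const.mul ((contDiff_phiDer N R).comp hS)).mul
      (((ev _ hg u).mul (ev _ ho v)).sub ((ev _ ho u).mul (ev _ hg v))))

theorem contDiff_potForm_fixed (N R : ℝ) (om g : Bil) {h : R4 → R4} (hh : ContDiff ℝ ∞ h) :
    ContDiff ℝ ∞ fun z => potForm N R om g (h z) :=
  ContDiff.comp (g := fun p : (Bil × Bil) × R4 => potForm N R p.1.1 p.1.2 p.2)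
    (f := fun z => ((om, g), h z)) (contDiff_potForm N R) (contDiff_const.prodMk hh)

theorem pot_zero {N R : ℝ} (hN : 1 ≤ N) (hR : 0 < R) {om g : Bil} {z : R4}
    (h : R ^ 2 ≤ g z z) : potCov N R om g z = 0 ∧ potForm N R om g z = 0 := by
  obtain ⟨h1, h2⟩ := phi_outer hN hR h
  simp [potCov, potForm, h1, h2]

variable {X : Type u} [TopologicalSpace X] [T2Space X] [ChartedSpace R4 X]
  [IsManifold 𝓘(ℝ, R4) ∞ X]

/-- The symplectic form in a chart. -/
def omC (G : Geo X) (i : Fin G.n) (y : R4) : Bil := view2 (G.c i) G.omega y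

/-- The metric in a chart. -/
def gC (G : Geo X) (i : Fin G.n) (y : R4) : Bil := gOf (omC G i y) (Jc G (G.c i) y)

theorem ball_target (G : Geo X) (i : Fin G.n) {r : ℝ} (hr : r < 4) :
    closedBall (0 : R4) r ⊆ (G.c i).target := by
  rw [G.c_target]; exact closedBall_subset_ball hr

theorem herm_at (G : Geo X) (i : Fin G.n) {y : R4} (hy : y ∈ (G.c i).target) :
    Herm (omC G i y) (Jc G (G.c i) y) where
  alt _ _ := G.omega_smooth.1 _ _ _
  sq := Jc_Jc G (G.c_mem i) hy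
  inv := view2_omega_inv G (G.c_mem i) hy
  pos _ hv := view2_omega_pos G (G.c_mem i) hy hv

/-- The test form. -/
def pieceForm (G : Geo X) (i : Fin G.n) (y₀ : R4) (N R : ℝ) : X → Bil :=
  extD1 (push1 (G.c i) fun y => potCov N R (omC G i y₀) (gC G i y₀) (y - y₀))

variable [MeasurableSpace X] {G : Geo X}

theorem gC_smooth (hB : BaseFacts G) (i : Fin G.n) :
    ContDiffOn ℝ ∞ (fun y => gC G i y) (G.c i).target :=
  contDiffOn_clm_apply.2 fun _ => contDiffOn_clm_apply.2 fun _ =>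
    ((hB.smooth_view2 _ G.omega_smooth _ (G.c_mem i)).clm_apply contDiffOn_const).clm_apply
      ((Jc_smooth hB (G.c_mem i)).clm_apply contDiffOn_const)

theorem metric_bounds (hB : BaseFacts G) (i : Fin G.n) :
    ∃ c₀ M : ℝ, 0 < c₀ ∧ 0 ≤ M ∧ ∀ y ∈ closedBall (0 : R4) 3,
      (∀ v, c₀ * ‖v‖ ^ 2 ≤ gC G i y v v) ∧ ∀ u v, |gC G i y u v| ≤ M * ‖u‖ * ‖v‖ := by
  have hc : ContinuousOn (fun y => gC G i y) (closedBall 0 3) :=
    (gC_smooth hB i).continuousOn.mono (ball_target G i (by norm_num))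
  obtain ⟨M, hM⟩ := (isCompact_closedBall _ _).exists_bound_of_continuousOn hc
  have hne : (closedBall (0 : R4) 3 ×ˢ sphere (0 : R4) 1).Nonempty :=
    ⟨(0, bvec 0), by simp, by simp [bvec]⟩
  have hc2 : ContinuousOn (fun p : R4 × R4 => gC G i p.1 p.2 p.2)
      (closedBall 0 3 ×ˢ sphere 0 1) :=
    ((hc.comp continuousOn_fst fun p hp => hp.1).clm_apply continuousOn_snd).clm_apply
      continuousOn_snd
  obtain ⟨⟨ym, vm⟩, hm, hmin⟩ :=
    ((isCompact_closedBall (0 : R4) 3).prod (isCompact_sphere 0 1)).exists_isMinOn hne hc2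
  have hv0 : vm ≠ 0 := ne_of_mem_sphere hm.2 one_ne_zero
  refine ⟨gC G i ym vm vm, max M 0,
    (herm_at G i (ball_target G i (by norm_num) hm.1)).g_pos hv0, le_max_right _ _,
    fun y hy => ⟨fun v => ?_, fun u v => ?_⟩⟩
  · rcases eq_or_ne v 0 with rfl | hv
    · simp
    have hn : 0 < ‖v‖ := norm_pos_iff.2 hv
    have h : gC G i ym vm vm ≤ gC G i y (‖v‖⁻¹ • v) (‖v‖⁻¹ • v) :=
      hmin (a := (y, ‖v‖⁻¹ • v)) ⟨hy, by simp [norm_smul, hn.ne']⟩
    simp only [map_smul, smul_apply, smul_eq_mul] at h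
    have h2 := mul_le_mul_of_nonneg_right h (sq_nonneg ‖v‖)
    rwa [show ‖v‖⁻¹ * (‖v‖⁻¹ * gC G i y v v) * ‖v‖ ^ 2 = gC G i y v v by field_simp] at h2
  · rw [← Real.norm_eq_abs]
    exact ((gC G i y).le_opNorm₂ u v).trans (mul_le_mul_of_nonneg_right
      (mul_le_mul_of_nonneg_right ((hM y hy).trans (le_max_left _ _)) (norm_nonneg _))
      (norm_nonneg _))

theorem piece_props (hB : BaseFacts G) (i : Fin G.n) {c₀ : ℝ} (hc₀ : 0 < c₀)
    (hg : ∀ y ∈ closedBall (0 : R4) 3, ∀ v, c₀ * ‖v‖ ^ 2 ≤ gC G i y v v)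
    {y₀ : R4} (hy₀ : ‖y₀‖ ≤ 1) {N R : ℝ} (hN : 1 ≤ N) (hR : 0 < R)
    (hR1 : R / Real.sqrt c₀ ≤ 1) :
    Closed2 (pieceForm G i y₀ N R) ∧
      (∀ x, pieceForm G i y₀ N R x ≠ 0 →
        x ∈ (G.c i).symm '' closedBall y₀ (R / Real.sqrt c₀)) ∧
      ∀ y ∈ (G.c i).target, view2 (G.c i) (pieceForm G i y₀ N R) y
        = potForm N R (omC G i y₀) (gC G i y₀) (y - y₀) := by
  set α := fun y => potCov N R (omC G i y₀) (gC G i y₀) (y - y₀) with hα
  have hy3 : y₀ ∈ closedBall (0 : R4) 3 := by simpa using hy₀.trans (by norm_num)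
  have h1 : ContDiff ℝ ∞ α := contDiff_potCov _ _ _ _ _
  have hout : ∀ y, R / Real.sqrt c₀ < ‖y - y₀‖ → α y = 0 := fun y hy => by
    refine (pot_zero hN hR ((le_of_lt ?_).trans (hg y₀ hy3 _))).1
    rw [div_lt_iff₀ (Real.sqrt_pos.2 hc₀)] at hy
    calc R ^ 2 < (‖y - y₀‖ * Real.sqrt c₀) ^ 2 := pow_lt_pow_left₀ hy hR.le two_ne_zero
      _ = c₀ * ‖y - y₀‖ ^ 2 := by rw [mul_pow, Real.sq_sqrt hc₀.le]; ring
  have hsupp : tsupport α ⊆ closedBall y₀ (R / Real.sqrt c₀) := by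
    refine closure_minimal (fun y hy => ?_) isClosed_closedBall
    by_contra h
    rw [mem_closedBall, dist_eq_norm, not_le] at h
    exact hy (hout y h)
  have h2 : HasCompactSupport α :=
    IsCompact.of_isClosed_subset (isCompact_closedBall _ _) (isClosed_tsupport _) hsupp
  have h3 : tsupport α ⊆ (G.c i).target := hsupp.trans fun y hy => by
    refine ball_target G i (r := 2) (by norm_num) ?_
    rw [mem_closedBall, dist_eq_norm] at hy
    rw [mem_closedBall, dist_zero_right]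
    have := norm_le_norm_add_norm_sub' y y₀
    linarith
  refine ⟨hB.exact_closed _ (hB.push1_smooth _ (G.c_mem i) _ h1 h2 h3).1, fun x hx => ?_,
    fun y hy => ?_⟩
  · by_contra h
    exact hx (extD1_push1_zero h2 h3 fun hh => h (image_mono hsupp hh))
  · rw [pieceForm, extD1_push1_view hB (G.c_mem i) h1 h2 h3 hy]
    exact d1At_potCov N R (herm_at G i (ball_target G i (by norm_num) hy3)).alt
      (herm_at G i (ball_target G i (by norm_num) hy3)).g_symm y₀ y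

theorem iteratedFDeriv_sub_center {K : Type*} [NormedAddCommGroup K] [NormedSpace ℝ K]
    {T : R4 → K} (hT : ContDiff ℝ ∞ T) (c : K) (q : ℕ) (y : R4) :
    iteratedFDeriv ℝ (q + 1) (fun z => T z - c) y = iteratedFDeriv ℝ (q + 1) T y := by
  rw [show (fun z => T z - c) = T - fun _ => c from rfl,
    iteratedFDeriv_sub_apply (hT.contDiffAt.of_le (by exact_mod_cast le_top)) contDiffAt_const,
    iteratedFDeriv_const_of_ne (Nat.succ_ne_zero q), Pi.zero_apply, sub_zero]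

/-- Derivatives of a product whose first factor is small at the centre. -/
theorem product_bound {F K : Type*} [NormedAddCommGroup F] [NormedSpace ℝ F] [NormedAddCommGroup K]
    [NormedSpace ℝ K] {P : R4 → F →L[ℝ] K} {h : R4 → F} (hP : ContDiff ℝ ∞ P)
    (hh : ContDiff ℝ ∞ h) {a b ρ : ℝ} (ha : 0 ≤ a) (hρ : 0 < ρ) {m : ℕ} {y : R4}
    (hPb : ∀ q ≤ m, ‖iteratedFDeriv ℝ q P y‖ ≤ a * ρ * ρ⁻¹ ^ q)
    (hhb : ∀ q ≤ m, ‖iteratedFDeriv ℝ q h y‖ ≤ b * ρ⁻¹ ^ (2 + q)) :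
    ‖iteratedFDeriv ℝ m (fun z => P z (h z)) y‖ ≤ 2 ^ m * (a * b) * ρ⁻¹ ^ (1 + m) := by
  refine (norm_iteratedFDeriv_clm_apply hP hh y (by exact_mod_cast le_top)).trans ?_
  calc _ ≤ ∑ q ∈ Finset.range (m + 1), (m.choose q : ℝ) * (a * b * ρ⁻¹ ^ (1 + m)) := by
        refine Finset.sum_le_sum fun q hq => ?_
        have hq' := Nat.lt_succ_iff.1 (Finset.mem_range.1 hq)
        rw [mul_assoc]
        refine mul_le_mul_of_nonneg_left ?_ (Nat.cast_nonneg _)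
        refine (mul_le_mul (hPb q hq') (hhb _ (Nat.sub_le m q)) (norm_nonneg _)
          (by positivity)).trans_eq ?_
        have hd : q + (2 + (m - q)) = 1 + (1 + m) := by omega
        calc a * ρ * ρ⁻¹ ^ q * (b * ρ⁻¹ ^ (2 + (m - q)))
            = a * b * ρ * ρ⁻¹ ^ (q + (2 + (m - q))) := by rw [pow_add _ q]; ring
          _ = a * b * ρ⁻¹ ^ (1 + m) * (ρ * ρ⁻¹) := by rw [hd, pow_add]; ring
          _ = _ := by rw [mul_inv_cancel₀ hρ.ne', mul_one]
    _ = _ := by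
        rw [← Finset.sum_mul, ← Nat.cast_sum, Nat.sum_range_choose]
        push_cast
        ring

/-- The anti-invariant part as a continuous linear map. -/
def antiCLM (A : Endo) : Bil →L[ℝ] Bil := (2⁻¹ : ℝ) • (ContinuousLinearMap.id ℝ Bil - pullCLM A)

theorem antiCLM_apply (A : Endo) (b : Bil) : antiCLM A b = anti20 A b := by
  simp [antiCLM, anti20, pullCLM_apply]

/-- A global extension of `y ↦ antiCLM (Jc y)`. -/
theorem anti_ext (hB : BaseFacts G) (i : Fin G.n) :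
    ∃ T : R4 → Bil →L[ℝ] Bil, ContDiff ℝ ∞ T ∧
      (∀ y ∈ closedBall (0 : R4) 3, T y = antiCLM (Jc G (G.c i) y)) ∧
      ∀ m : ℕ, ∃ a : ℝ, 0 ≤ a ∧ (∀ y y₀, ‖T y - T y₀‖ ≤ a * ‖y - y₀‖) ∧
        ∀ q ≤ m, ∀ y, ‖iteratedFDeriv ℝ q T y‖ ≤ a := by
  set β : ContDiffBump (0 : R4) := ⟨3, 7 / 2, by norm_num, by norm_num⟩
  have hβ : tsupport β ⊆ (G.c i).target := by
    rw [ContDiffBump.tsupport_eq]; exact ball_target G i (r := 7 / 2) (by norm_num)
  set Tl := fun y => β y • antiCLM (Jc G (G.c i) y) with hTl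
  have hJ : ContDiffOn ℝ ∞ (fun y => antiCLM (Jc G (G.c i) y)) (G.c i).target :=
    (contDiffOn_const.sub (contDiffOn_pullCLM (Jc_smooth hB (G.c_mem i)))).const_smul _
  have hTs : ContDiff ℝ ∞ Tl := contDiff_cutoff (G.c i).open_target β.contDiff hβ hJ
  have hTc : HasCompactSupport Tl := HasCompactSupport.intro β.hasCompactSupport fun y hy => by
    show β y • antiCLM (Jc G (G.c i) y) = 0
    rw [image_eq_zero_of_notMem_tsupport hy]
    exact zero_smul ℝ (antiCLM (Jc G (G.c i) y))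
  obtain ⟨Lp, hLp⟩ := ContDiff.lipschitzWith_of_hasCompactSupport hTc hTs (by simp)
  have hDT : ∀ j, ∃ B, 0 ≤ B ∧ ∀ y, ‖iteratedFDeriv ℝ j Tl y‖ ≤ B := fun j => by
    obtain ⟨B, hB'⟩ := (hTc.iteratedFDeriv (𝕜 := ℝ) j).exists_bound_of_continuous
      (hTs.continuous_iteratedFDeriv (by exact_mod_cast le_top))
    exact ⟨max B 0, le_max_right _ _, fun y => (hB' y).trans (le_max_left _ _)⟩
  choose B hB0 hBd using hDT
  refine ⟨Tl, hTs, fun y hy => ?_, fun m => ⟨(Lp : ℝ) + ∑ q ∈ Finset.range (m + 1), B q,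
    add_nonneg Lp.coe_nonneg (Finset.sum_nonneg fun q _ => hB0 q), fun y y₀ => ?_, fun q hq y => ?_⟩⟩
  · show β y • _ = _
    rw [β.one_of_mem_closedBall hy, one_smul]
  · exact (hLp.norm_sub_le y y₀).trans (mul_le_mul_of_nonneg_right
      (le_add_of_nonneg_right (Finset.sum_nonneg fun q _ => hB0 q)) (norm_nonneg _))
  · exact (hBd q y).trans ((Finset.single_le_sum (fun q _ => hB0 q)
      (Finset.mem_range.2 (by omega : q < m + 1))).trans (le_add_of_nonneg_left Lp.coe_nonneg))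

/-- Derivatives of the test form at scale `ρ`. -/
theorem potForm_bound (hB : BaseFacts G) (i : Fin G.n) (L : ℝ) (m : ℕ) :
    ∃ b : ℝ, 0 ≤ b ∧ ∀ q ≤ m, ∀ y₀ : R4, ‖y₀‖ ≤ 1 → ∀ ρ, 0 < ρ → ∀ y : R4,
      ‖y - y₀‖ ≤ ρ * L →
      ‖iteratedFDeriv ℝ q (fun z => potForm 4 ρ (omC G i y₀) (gC G i y₀) (z - y₀)) y‖
        ≤ b * ρ⁻¹ ^ (2 + q) := by
  set Kp := (fun y => (omC G i y, gC G i y)) '' closedBall (0 : R4) 1
  have hKc : IsCompact Kp := (isCompact_closedBall _ _).image_of_continuousOn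
    (((hB.smooth_view2 _ G.omega_smooth _ (G.c_mem i)).continuousOn.mono
      (ball_target G i (by norm_num))).prodMk
      ((gC_smooth hB i).continuousOn.mono (ball_target G i (by norm_num))))
  choose BH hBH0 hBH using fun j => scaled_bound (contDiff_potForm 4 1) hKc L j
  refine ⟨∑ q ∈ Finset.range (m + 1), BH q, Finset.sum_nonneg fun q _ => hBH0 q,
    fun q hq y₀ hy₀ ρ hρ y hy => ?_⟩
  have hrw : (fun z => potForm 4 ρ (omC G i y₀) (gC G i y₀) (z - y₀)) =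
      fun z => ρ⁻¹ ^ 2 • potForm 4 1 (omC G i y₀) (gC G i y₀) (ρ⁻¹ • (z - y₀)) :=
    funext fun z => potForm_scale _ _ _ _ _
  have hs : ContDiff ℝ ∞ fun z : R4 =>
      potForm 4 1 (omC G i y₀) (gC G i y₀) (ρ⁻¹ • (z - y₀)) :=
    contDiff_potForm_fixed 4 1 (omC G i y₀) (gC G i y₀)
      ((contDiff_id.sub contDiff_const).const_smul ρ⁻¹)
  have hb := hBH q (omC G i y₀, gC G i y₀) ⟨y₀, by simpa using hy₀, rfl⟩ ρ hρ y₀ y (by
    rw [norm_smul, norm_inv, Real.norm_eq_abs, abs_of_pos hρ]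
    calc ρ⁻¹ * ‖y - y₀‖ ≤ ρ⁻¹ * (ρ * L) := mul_le_mul_of_nonneg_left hy (by positivity)
      _ = L := by rw [← mul_assoc, inv_mul_cancel₀ hρ.ne', one_mul])
  rw [hrw, iteratedFDeriv_const_smul_apply' (hs.contDiffAt.of_le (by exact_mod_cast le_top)),
    norm_smul, norm_pow, norm_inv, Real.norm_eq_abs, abs_of_pos hρ, pow_add]
  calc ρ⁻¹ ^ 2 * _ ≤ ρ⁻¹ ^ 2 * ((∑ q ∈ Finset.range (m + 1), BH q) * ρ⁻¹ ^ q) :=
        mul_le_mul_of_nonneg_left (hb.trans (mul_le_mul_of_nonneg_right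
          (Finset.single_le_sum (fun q _ => hBH0 q) (Finset.mem_range.2 (by omega : q < m + 1)))
          (by positivity))) (by positivity)
    _ = _ := by ring

/-- The derivatives of `z ↦ (T z - T y₀) (η z)`. -/
theorem twisted_bound {T : R4 → Bil →L[ℝ] Bil} {η : R4 → Bil} (hT : ContDiff ℝ ∞ T)
    (hη : ContDiff ℝ ∞ η) {a b ρ L : ℝ} {m j : ℕ} {y y₀ : R4} (ha : 0 ≤ a) (hb0 : 0 ≤ b)
    (hρ : 0 < ρ) (hρ1 : ρ ≤ 1) (hL : 1 ≤ L) (hy : ‖y - y₀‖ ≤ ρ * L) (hj : j ≤ m)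
    (hlip : ‖T y - T y₀‖ ≤ a * ‖y - y₀‖) (hder : ∀ q ≤ m, ‖iteratedFDeriv ℝ q T y‖ ≤ a)
    (hηb : ∀ q ≤ m, ‖iteratedFDeriv ℝ q η y‖ ≤ b * ρ⁻¹ ^ (2 + q)) :
    ‖iteratedFDeriv ℝ j (fun z => (T z - T y₀) (η z)) y‖
      ≤ 2 ^ m * (a * L * b) * ρ⁻¹ ^ (1 + m) := by
  have hρi : 1 ≤ ρ⁻¹ := (one_le_inv₀ hρ).2 hρ1
  have haL : 0 ≤ a * L := mul_nonneg ha (zero_le_one.trans hL)
  refine (product_bound (a := a * L) (hT.sub contDiff_const) hη haL hρ (fun q hq => ?_)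
    (fun q hq => hηb q (hq.trans hj))).trans ?_
  · rcases q with _ | q
    · rw [norm_iteratedFDeriv_zero, pow_zero, mul_one]
      calc ‖T y - T y₀‖ ≤ a * ‖y - y₀‖ := hlip
        _ ≤ a * (ρ * L) := mul_le_mul_of_nonneg_left hy ha
        _ = a * L * ρ := by ring
    · rw [iteratedFDeriv_sub_center hT]
      refine (hder (q + 1) (hq.trans hj)).trans ?_
      calc a ≤ a * L := le_mul_of_one_le_right ha hL
        _ ≤ a * L * ρ⁻¹ ^ q := le_mul_of_one_le_right haL (one_le_pow₀ hρi)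
        _ = a * L * ρ⁻¹ ^ q * (ρ * ρ⁻¹) := by rw [mul_inv_cancel₀ hρ.ne', mul_one]
        _ = _ := by rw [pow_succ]; ring
  · exact mul_le_mul (mul_le_mul_of_nonneg_right (pow_le_pow_right₀ one_le_two hj)
      (mul_nonneg haL hb0)) (pow_le_pow_right₀ hρi (by omega)) (by positivity) (by positivity)

/-- The anti-invariant part of a piece in its chart. -/
theorem piece_anti (hB : BaseFacts G) (i : Fin G.n) {c₀ L : ℝ} (hc₀ : 0 < c₀)
    (hg : ∀ y ∈ closedBall (0 : R4) 3, ∀ v, c₀ * ‖v‖ ^ 2 ≤ gC G i y v v)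
    (hL : (Real.sqrt c₀)⁻¹ ≤ L) {T : R4 → Bil →L[ℝ] Bil}
    (hT : ∀ y ∈ closedBall (0 : R4) 3, T y = antiCLM (Jc G (G.c i) y))
    {y₀ : R4} (hy₀ : ‖y₀‖ ≤ 1) {ρ : ℝ} (hρ : 0 < ρ) (hρL : ρ * L ≤ 1) :
    (∀ x, G.p20 (pieceForm G i y₀ 4 ρ) x ≠ 0 → x ∈ (G.c i).symm '' closedBall y₀ (ρ * L)) ∧
      ∀ y ∈ (G.c i).target, view2 (G.c i) (G.p20 (pieceForm G i y₀ 4 ρ)) y
        = (T y - T y₀) (potForm 4 ρ (omC G i y₀) (gC G i y₀) (y - y₀)) := by
  have hδ : ρ / Real.sqrt c₀ ≤ ρ * L :=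
    (div_eq_mul_inv ρ _).trans_le (mul_le_mul_of_nonneg_left hL hρ.le)
  obtain ⟨-, hsup, hview⟩ := piece_props hB i hc₀ hg hy₀
    (by norm_num : (1 : ℝ) ≤ 4) hρ (hδ.trans hρL)
  have hy3 : y₀ ∈ closedBall (0 : R4) 3 := by simpa using hy₀.trans (by norm_num)
  refine ⟨fun x hx => ?_, fun y hy => ?_⟩
  · refine image_mono (closedBall_subset_closedBall hδ) (hsup x fun h => hx ?_)
    simp [Geo.p20, h, anti20, pullBil_zero]
  rw [view2_p20 G (G.c_mem i) hy, hview y hy]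
  set η := potForm 4 ρ (omC G i y₀) (gC G i y₀) (y - y₀) with hη
  rcases eq_or_ne η 0 with h | h
  · simp [h, anti20, pullBil_zero]
  have hy' : ‖y - y₀‖ ≤ ρ * L := by
    by_contra hh
    refine h (pot_zero (by norm_num) hρ (le_trans ?_ (hg y₀ hy3 _))).2
    have h1 : ρ / Real.sqrt c₀ ≤ ‖y - y₀‖ := hδ.trans (not_le.1 hh).le
    rw [div_le_iff₀ (Real.sqrt_pos.2 hc₀)] at h1
    calc ρ ^ 2 ≤ (‖y - y₀‖ * Real.sqrt c₀) ^ 2 := pow_le_pow_left₀ hρ.le h1 2
      _ = c₀ * ‖y - y₀‖ ^ 2 := by rw [mul_pow, Real.sq_sqrt hc₀.le]; ring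
  have hy2 : y ∈ closedBall (0 : R4) 3 := by
    rw [mem_closedBall, dist_zero_right]
    have := norm_le_norm_add_norm_sub' y y₀
    linarith
  have hinv := (herm_at G i (ball_target G i (by norm_num) hy3)).potForm_inv 4 ρ (y - y₀)
  have h0 : antiCLM (Jc G (G.c i) y₀) η = 0 := by
    simp [antiCLM_apply, anti20, hη, gC, hinv]
  rw [sub_apply, hT y hy2, hT y₀ hy3, h0, sub_zero, antiCLM_apply]

/-- The scaled Sobolev bound for one piece. -/
theorem piece_bound (hB : BaseFacts G) (i : Fin G.n) (k : ℕ) :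
    ∃ C ρ₀ : ℝ, 0 ≤ C ∧ 0 < ρ₀ ∧ ρ₀ ≤ 1 ∧ ∀ y₀ : R4, ‖y₀‖ ≤ 1 → ∀ ρ, 0 < ρ → ρ ≤ ρ₀ →
      G.sk k ρ (G.p20 (pieceForm G i y₀ 4 ρ)) ≤ C * ρ := by
  obtain ⟨c₀, M, hc₀, -, hg⟩ := metric_bounds hB i
  set L := max 1 (Real.sqrt c₀)⁻¹
  have hL0 : 0 < L := zero_lt_one.trans_le (le_max_left _ _)
  obtain ⟨T, hTs, hT, hTb⟩ := anti_ext hB i
  choose a ha0 hlip hder using hTb
  choose b hb0 hηb using fun m => potForm_bound hB i L m
  choose CT hCT0 hCT using fun p : Fin G.n × ℕ => transfer hB i p.1 p.2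
  refine ⟨∑ m ∈ Finset.range (k + 1), ∑ l, CT (l, m) * (2 ^ m * (a m * L * b m)) * L ^ 2,
    min 1 (1 / L), ?_, lt_min one_pos (by positivity), min_le_left _ _, fun y₀ hy₀ ρ hρ hρ0 => ?_⟩
  · exact Finset.sum_nonneg fun m _ => Finset.sum_nonneg fun l _ => mul_nonneg
      (mul_nonneg (hCT0 _) (mul_nonneg (by positivity)
        (mul_nonneg (mul_nonneg (ha0 m) hL0.le) (hb0 m)))) (sq_nonneg _)
  have hρ1 : ρ ≤ 1 := hρ0.trans (min_le_left _ _)
  have hρL : ρ * L ≤ 1 := (le_div_iff₀ hL0).1 (hρ0.trans (min_le_right _ _))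
  obtain ⟨hsup, hvp⟩ := piece_anti hB i hc₀ (fun y hy => (hg y hy).1) (le_max_right _ _) hT hy₀
    hρ hρL
  have hηs : ContDiff ℝ ∞ fun z => potForm 4 ρ (omC G i y₀) (gC G i y₀) (z - y₀) :=
    contDiff_potForm_fixed 4 ρ (omC G i y₀) (gC G i y₀) (contDiff_id.sub contDiff_const)
  rw [Geo.sk, Finset.sum_mul]
  refine Finset.sum_le_sum fun m _ => ?_
  rw [Geo.hn, Finset.mul_sum, Finset.sum_mul]
  refine Finset.sum_le_sum fun l _ => ?_
  have hA : (0 : ℝ) ≤ 2 ^ m * (a m * L * b m) * ρ⁻¹ ^ (1 + m) :=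
    mul_nonneg (mul_nonneg (by positivity) (mul_nonneg (mul_nonneg (ha0 m) hL0.le) (hb0 m)))
      (by positivity)
  have := hCT (l, m) _ (fun z => (T z - T y₀) (potForm 4 ρ (omC G i y₀) (gC G i y₀) (z - y₀)))
    y₀ (ρ * L) (2 ^ m * (a m * L * b m) * ρ⁻¹ ^ (1 + m))
    ((hTs.sub contDiff_const).clm_apply hηs) hy₀ (by positivity) hρL hA hsup hvp fun j hj y hy => by
      rw [mem_closedBall, dist_eq_norm] at hy
      exact twisted_bound hTs hηs (ha0 m) (hb0 m) hρ hρ1 (le_max_left _ _) hy hj (hlip m y y₀)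
        (fun q hq => hder m q hq y) fun q hq => hηb m q hq y₀ hy₀ ρ hρ y hy
  refine (mul_le_mul_of_nonneg_left this (by positivity)).trans_eq ?_
  rw [pow_add, pow_one, inv_pow]
  field_simp

end Vale.Agent.P204.Full.Density
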