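import Vale.Agent.P204.Full.Density.Piece
import Vale.Agent.P204.Full.Interfaces

/-!
The density inequality at the centre of one chart.
-/

open scoped Manifold ContDiff Topology
open MeasureTheory Set Filter Metric

noncomputable section

namespace Vale.Agent.P204.Full.Density

universe u

set_option linter.unusedSectionVars false
set_option maxSynthPendingDepth 3

theorem phiDer_sum (R S : ℝ) (m : ℕ) :
    ∑ j ∈ Finset.range m, phiDer 4 (R / 2 ^ j) S = phiDer (4 ^ m) R S := by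
  have h := HasDerivAt.sum (u := Finset.range m)
    (A := fun j => phi 4 (R / 2 ^ j)) fun j _ => hasDerivAt_phi 4 (R / 2 ^ j) S
  have e : (∑ j ∈ Finset.range m, phi 4 (R / 2 ^ j)) = phi (4 ^ m) R := by
    funext T; rw [Finset.sum_apply, phi_sum]
  rw [e] at h
  exact h.unique (hasDerivAt_phi _ _ _)

theorem potForm_sum (R : ℝ) (om g : Bil) (z : R4) (m : ℕ) :
    ∑ j ∈ Finset.range m, potForm 4 (R / 2 ^ j) om g z = potForm (4 ^ m) R om g z := by
  simp only [potForm]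
  rw [Finset.sum_add_distrib, ← Finset.sum_smul, ← Finset.sum_smul, ← Finset.mul_sum,
    ← Finset.mul_sum, phi_sum, phiDer_sum]

/-- The pointwise lower bound of the test form. -/
theorem lower_point {om : Bil} {J : Endo} (h : Herm om J) {N R Cphi Q : ℝ} {z v w : R4}
    (hN : 1 ≤ N) (hR : 0 < R) (hR1 : R ≤ 1) (hQ : 0 ≤ Q) (hC : 1 ≤ Cphi)
    (hphi : ∀ S, 0 ≤ S → S * phi N R S ≤ 1 ∧ -(Cphi * R⁻¹ ^ 2) ≤ phi N R S + S * phiDer N R S ∧
      |S * (phi N R S + S * phiDer N R S)| ≤ Cphi)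
    (hw : gOf om J (J w) (J w) ≤ Q * gOf om J z z * gOf om J v v) :
    -(Cphi * (3 * Q + 3) * R⁻¹ ^ 2 * gOf om J v v) ≤ potForm N R om (gOf om J) z v (J v + w) ∧
    (N * (gOf om J z z * R⁻¹ ^ 2) ≤ 1 / 2 →
      R⁻¹ ^ 2 * (N - 1) * gOf om J v v - Cphi * (3 * Q + 3) * R⁻¹ ^ 2 * gOf om J v v
        ≤ potForm N R om (gOf om J) z v (J v + w)) := by
  set S := gOf om J z z with hS
  set g := gOf om J v v with hg
  have hS0 : 0 ≤ S := h.g_nonneg z
  have hg0 : 0 ≤ g := h.g_nonneg v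
  obtain ⟨p1, p2, p3⟩ := hphi S hS0
  have hφ : 0 ≤ phi N R S := phi_nonneg hN hS0
  have hR2 : 1 ≤ R⁻¹ ^ 2 := one_le_pow₀ ((one_le_inv₀ hR).2 hR1)
  set K := Cphi * R⁻¹ ^ 2 with hK
  have hK0 : 0 ≤ K := by positivity
  by_cases hout : R ^ 2 ≤ S
  · rw [(pot_zero hN hR hout).2]
    refine ⟨by simpa using mul_nonneg (by positivity) hg0, fun hcore => ?_⟩
    have : N ≤ N * (S * R⁻¹ ^ 2) := le_mul_of_one_le_right (by linarith) (by
      rw [inv_pow, ← div_eq_mul_inv, one_le_div₀ (by positivity)]; exact hout)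
    linarith
  have hp := h.perturbed hK0 z v w (N := N) (R := R) (by rw [← hS]; linarith) p2
  have hup := h.quad_upper (N := N) (R := R) (C := Cphi) z (J w) hS0 (by rw [← hS]; linarith)
    ((le_abs_self _).trans p3)
  have hlow := h.quad_lower (N := N) (R := R) (K := K) z v (by rw [← hS]; linarith) p2
  rw [← hg] at hp
  rw [← hS] at hup
  rw [← hg] at hlow
  have hu : potForm N R om (gOf om J) z (J w) (J (J w)) ≤ 2 * Cphi * Q * g := by
    rcases hS0.eq_or_lt with h0 | h0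
    · have hw0 : J w = 0 := by
        by_contra hne
        have := h.g_pos hne
        rw [← h0, mul_zero, zero_mul] at hw
        linarith
      rw [hw0]
      simp only [map_zero]
      positivity
    · have h3 : S * potForm N R om (gOf om J) z (J w) (J (J w)) ≤ S * (2 * Cphi * Q * g) := by
        nlinarith [mul_le_mul_of_nonneg_left hw (show (0 : ℝ) ≤ 2 * Cphi by linarith)]
      exact le_of_mul_le_mul_left h3 h0
  have hwQ : gOf om J (J w) (J w) ≤ Q * g := by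
    refine hw.trans (mul_le_mul_of_nonneg_right ?_ hg0)
    exact mul_le_of_le_one_right hQ (by nlinarith [not_le.1 hout])
  have h4 : Cphi * Q * g ≤ K * Q * g := mul_le_mul_of_nonneg_right
    (mul_le_mul_of_nonneg_right (le_mul_of_one_le_right (by linarith) hR2) hQ) hg0
  have h5 : K * gOf om J (J w) (J w) ≤ K * (Q * g) := mul_le_mul_of_nonneg_left hwQ hK0
  have h6 : 0 ≤ K * Q * g := by positivity
  have e : Cphi * (3 * Q + 3) * R⁻¹ ^ 2 * g = 3 * (K * Q * g) + 3 * (K * g) := by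
    rw [hK]; ring
  refine ⟨by nlinarith, fun hcore => ?_⟩
  obtain ⟨c1, c2⟩ := phi_core hN hS0 hcore
  have hq := h.quad_core (N := N) (R := R) z v (by rw [← hS, c2, c1])
  rw [← hS, ← hg, c1] at hq
  nlinarith [mul_nonneg hK0 hg0]

variable {X : Type u} [TopologicalSpace X] [T2Space X] [CompactSpace X] [ChartedSpace R4 X]
  [IsManifold 𝓘(ℝ, R4) ∞ X] [MeasurableSpace X] [BorelSpace X] {G : Geo X}

theorem view2_sum (c : OpenPartialHomeomorph X R4) {ι : Type*} (s : Finset ι) (θ : ι → X → Bil)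
    (y : R4) : view2 c (∑ j ∈ s, θ j) y = ∑ j ∈ s, view2 c (θ j) y := by
  rw [view2, Finset.sum_apply, ← pullCLM_apply, map_sum]
  rfl

theorem cont2_zero : Cont2 (0 : X → Bil) :=
  ⟨fun x u v => by simp, fun x₀ => (continuousOn_const (c := (0 : Bil))).congr fun y _ => by
    simp [view2, pullBil_zero]⟩

theorem cont2_add {θ η : X → Bil} (hθ : Cont2 θ) (hη : Cont2 η) : Cont2 (θ + η) :=
  ⟨fun x u v => by simp [hθ.1 x u v, hη.1 x u v]; ring,
    fun x₀ => ((hθ.2 x₀).add (hη.2 x₀)).congr fun y _ => by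
      rw [view2, Pi.add_apply, ← pullCLM_apply, map_add]; rfl⟩

theorem cont2_smul {f : X → ℝ} {θ : X → Bil} (hf : Continuous f) (hθ : Cont2 θ) :
    Cont2 fun x => f x • θ x :=
  ⟨fun x u v => by simp [hθ.1 x u v],
    fun x₀ => ((hf.comp_continuousOn (chartAt R4 x₀).continuousOn_symm).smul (hθ.2 x₀)).congr
      fun y _ => by rw [view2, ← pullCLM_apply, map_smul]; rfl⟩

theorem cont2_sum {ι : Type*} (s : Finset ι) {θ : ι → X → Bil} (h : ∀ j ∈ s, Cont2 (θ j)) :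
    Cont2 (∑ j ∈ s, θ j) :=
  Finset.sum_induction _ Cont2 (fun _ _ => cont2_add) cont2_zero h

theorem near_closed_slice (hB : BaseFacts G) (r : ℝ) (x : X) : IsClosed (G.near r x) :=
  (hB.near_closed r).preimage (Continuous.prodMk continuous_const continuous_id)

theorem dens_bdd (D : PosCur G) {s : ℝ} (hs : 0 < s) :
    BddAbove {t | ∃ x : X, ∃ r : ℝ, s ≤ r ∧ r ≤ 1 ∧ t = G.dens D.mu r x} := by
  have := D.finite_mu
  refine ⟨(s ^ 2)⁻¹ * D.mu.real univ, ?_⟩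
  rintro t ⟨x, r, hsr, -, rfl⟩
  exact mul_le_mul (inv_anti₀ (by positivity) (pow_le_pow_left₀ hs.le hsr 2))
    (measureReal_mono (subset_univ _)) measureReal_nonneg (by positivity)

theorem nu_nonneg (D : PosCur G) (s : ℝ) : 0 ≤ G.nu D.mu s :=
  Real.sSup_nonneg (by
    rintro t ⟨x, r, -, -, rfl⟩
    exact mul_nonneg (inv_nonneg.2 (sq_nonneg _)) measureReal_nonneg)

theorem nu_anti (D : PosCur G) (x : X) {s t : ℝ} (hs : 0 < s) (hst : s ≤ t) (ht : t ≤ 1) :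
    G.nu D.mu t ≤ G.nu D.mu s :=
  csSup_le_csSup (dens_bdd D hs) ⟨_, x, t, le_rfl, ht, rfl⟩
    fun _ ⟨x, r, h1, h2, h3⟩ => ⟨x, r, hst.trans h1, h2, h3⟩

/-- The anti-invariant parts of the pieces cost `O(R)`. -/
theorem pieces_cost (hB : BaseFacts G) {D : Pair G} (hS : ScaleBound D) (i : Fin G.n) :
    ∃ C R₀ : ℝ, 0 ≤ C ∧ 0 < R₀ ∧ R₀ ≤ 1 ∧ ∀ (_ : X) (y₀ : R4), ‖y₀‖ ≤ 1 → ∀ (r R : ℝ) (m : ℕ),
      0 < r → (∀ j < m, r ≤ R / 2 ^ j) → 0 < R → R ≤ R₀ →
      (∀ j < m, Closed2 (pieceForm G i y₀ 4 (R / 2 ^ j))) →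
      D.P (∑ j ∈ Finset.range m, pieceForm G i y₀ 4 (R / 2 ^ j))
        ≤ C * R * Real.sqrt (1 + G.nu D.mu r) := by
  obtain ⟨k, Cs, s1, hs1, hQ⟩ := hS
  obtain ⟨Cp, ρ₀, hCp, hρ₀, hρ₀1, hp⟩ := piece_bound hB i k
  refine ⟨2 * (|Cs| * Cp), min ρ₀ s1, by positivity, lt_min hρ₀ hs1,
    (min_le_left _ _).trans hρ₀1, fun x y₀ hy₀ r R m hr hrR hR hR0 hcl => ?_⟩
  have hρle : ∀ j : ℕ, R / 2 ^ j ≤ R := fun j => div_le_self hR.le (one_le_pow₀ one_le_two)
  have hone : ∀ j ∈ Finset.range m, D.P (pieceForm G i y₀ 4 (R / 2 ^ j))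
      ≤ |Cs| * Cp * Real.sqrt (1 + G.nu D.mu r) * (R / 2 ^ j) := by
    intro j hj
    have hj' := Finset.mem_range.1 hj
    have hρ : 0 < R / 2 ^ j := by positivity
    have hρ0 : R / 2 ^ j ≤ ρ₀ := (hρle j).trans (hR0.trans (min_le_left _ _))
    obtain ⟨hsm, hanti⟩ := hB.p20_smooth _ (hcl j hj').1
    have hk := D.kills _ (hcl j hj')
    have hq := hQ _ hρ ((hρle j).trans (hR0.trans (min_le_right _ _))) _ hsm hanti
    have hν : G.nu D.mu (R / 2 ^ j) ≤ G.nu D.mu r :=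
      nu_anti D.toPosCur x hr (hrR j hj') (hρ0.trans hρ₀1)
    have hsk : 0 ≤ G.sk k (R / 2 ^ j) (G.p20 (pieceForm G i y₀ 4 (R / 2 ^ j))) :=
      Finset.sum_nonneg fun l _ => mul_nonneg (pow_nonneg hρ.le l)
        (Finset.sum_nonneg fun _ _ => Real.sqrt_nonneg _)
    calc D.P (pieceForm G i y₀ 4 (R / 2 ^ j)) = -D.Q (G.p20 (pieceForm G i y₀ 4 (R / 2 ^ j))) := by
          linarith
      _ ≤ |D.Q (G.p20 (pieceForm G i y₀ 4 (R / 2 ^ j)))| := neg_le_abs _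
      _ ≤ _ := hq
      _ ≤ |Cs| * Real.sqrt (1 + G.nu D.mu r) * (Cp * (R / 2 ^ j)) :=
          mul_le_mul (mul_le_mul (le_abs_self _) (Real.sqrt_le_sqrt (by linarith))
            (Real.sqrt_nonneg _) (abs_nonneg _)) (hp y₀ hy₀ _ hρ hρ0) hsk (by positivity)
      _ = _ := by ring
  rw [map_sum]
  refine (Finset.sum_le_sum hone).trans ?_
  rw [← Finset.mul_sum]
  have hgeo : ∑ j ∈ Finset.range m, R / 2 ^ j ≤ R * 2 := by
    have : ∀ j : ℕ, R / 2 ^ j = R * ((1 : ℝ) / 2) ^ j := fun j => by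
      rw [one_div, inv_pow, div_eq_mul_inv]
    simp only [this, ← Finset.mul_sum]
    exact mul_le_mul_of_nonneg_left (sum_geometric_two_le m) hR.le
  refine (mul_le_mul_of_nonneg_left hgeo (by positivity)).trans (le_of_eq ?_)
  ring

/-- Quadratic forms of the summed test form at one point of the chart. -/
theorem test_point (hB : BaseFacts G) (i : Fin G.n) :
    ∃ κ Cq : ℝ, 1 ≤ κ ∧ 0 ≤ Cq ∧ ∀ y₀ : R4, ‖y₀‖ ≤ 1 → ∀ y : R4, ‖y‖ ≤ 3 → ∀ (N R : ℝ),
      1 ≤ N → 0 < R → R ≤ 1 → ∀ u : R4,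
      (gC G i y u u ≤ κ * gC G i y₀ u u ∧ 0 ≤ gC G i y u u ∧
        gC G i y₀ (y - y₀) (y - y₀) ≤ κ * ‖y - y₀‖ ^ 2) ∧
      -(Cq * R⁻¹ ^ 2 * gC G i y u u) ≤
        potForm N R (omC G i y₀) (gC G i y₀) (y - y₀) u (Jc G (G.c i) y u) ∧
      (N * (gC G i y₀ (y - y₀) (y - y₀) * R⁻¹ ^ 2) ≤ 1 / 2 →
        R⁻¹ ^ 2 * (N - 1) / κ * gC G i y u u - Cq * R⁻¹ ^ 2 * gC G i y u u ≤
          potForm N R (omC G i y₀) (gC G i y₀) (y - y₀) u (Jc G (G.c i) y u)) := by
  obtain ⟨c₀, M, hc₀, hM, hg⟩ := metric_bounds hB i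
  obtain ⟨LJ, hLJ⟩ := ((Jc_smooth hB (G.c_mem i)).mono
    (ball_target G i (r := 3) (by norm_num))).exists_lipschitzOnWith (by simp)
    (convex_closedBall _ _) (isCompact_closedBall _ _)
  obtain ⟨Cphi, hC1, hphi⟩ := phi_bounds
  set κ := max 1 (max M (M / c₀)) with hκ
  set Q := M * (LJ : ℝ) ^ 2 / c₀ / c₀ with hQ
  refine ⟨κ, Cphi * (3 * Q + 3) * κ, le_max_left _ _, by positivity,
    fun y₀ hy₀ y hy N R hN hR hR1 u => ?_⟩
  have hy0 : y₀ ∈ closedBall (0 : R4) 3 := by simpa using hy₀.trans (by norm_num)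
  have hy' : y ∈ closedBall (0 : R4) 3 := by simpa using hy
  obtain ⟨glo, gup⟩ := hg y₀ hy0
  obtain ⟨glo', gup'⟩ := hg y hy'
  have up : ∀ v, gC G i y₀ v v ≤ M * ‖v‖ ^ 2 := fun v => by
    have := (le_abs_self _).trans (gup v v); linarith
  have up' : gC G i y u u ≤ M * ‖u‖ ^ 2 := by
    have := (le_abs_self _).trans (gup' u u); linarith
  have hMc : M / c₀ ≤ κ := (le_max_right _ _).trans (le_max_right _ _)
  have e0 : ∀ v : R4, M * ‖v‖ ^ 2 = M / c₀ * (c₀ * ‖v‖ ^ 2) := fun v => by field_simp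
  have h0 : 0 ≤ gC G i y u u := le_trans (by positivity) (glo' u)
  have h00 : 0 ≤ gC G i y₀ u u := le_trans (by positivity) (glo u)
  have c1 : gC G i y u u ≤ κ * gC G i y₀ u u := by
    refine up'.trans ((e0 u).trans_le ?_)
    exact mul_le_mul hMc (glo u) (by positivity) (by positivity)
  have c2 : gC G i y₀ u u ≤ κ * gC G i y u u := by
    refine (up u).trans ((e0 u).trans_le ?_)
    exact mul_le_mul hMc (glo' u) (by positivity) (by positivity)
  refine ⟨⟨c1, h0, (up _).trans (mul_le_mul_of_nonneg_right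
    ((le_max_left _ _).trans (le_max_right _ _)) (sq_nonneg _))⟩, ?_⟩
  have hh := herm_at G i (ball_target G i (r := 3) (by norm_num) hy0)
  set z := y - y₀ with hz
  set J₀ := Jc G (G.c i) y₀ with hJ0
  set w := Jc G (G.c i) y u - J₀ u with hwdef
  have hwn : ‖w‖ ≤ (LJ : ℝ) * ‖z‖ * ‖u‖ := by
    rw [hwdef, ← sub_apply]
    exact (ContinuousLinearMap.le_opNorm (Jc G (G.c i) y - J₀ : Endo) u).trans
      (mul_le_mul_of_nonneg_right (hLJ.norm_sub_le hy' hy0) (norm_nonneg _))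
  have hw : gOf (omC G i y₀) J₀ (J₀ w) (J₀ w)
      ≤ Q * gC G i y₀ z z * gC G i y₀ u u := by
    have e : gOf (omC G i y₀) J₀ (J₀ w) (J₀ w) = gC G i y₀ w w := by
      rw [hh.g_J, hh.alt, neg_neg, gC, ← hJ0]; exact Herm.om_J hh _ _
    rw [e]
    calc gC G i y₀ w w ≤ M * ‖w‖ ^ 2 := up w
      _ ≤ M * ((LJ : ℝ) * ‖z‖ * ‖u‖) ^ 2 :=
          mul_le_mul_of_nonneg_left (pow_le_pow_left₀ (norm_nonneg _) hwn 2) hM
      _ = Q * (c₀ * ‖z‖ ^ 2) * (c₀ * ‖u‖ ^ 2) := by rw [hQ]; field_simp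
      _ ≤ _ := by
          have hz0 : (0 : ℝ) ≤ gC G i y₀ z z := le_trans (by positivity) (glo z)
          exact mul_le_mul (mul_le_mul_of_nonneg_left (glo z) (by positivity)) (glo u)
            (by positivity) (mul_nonneg (by positivity) hz0)
  have hl := lower_point hh (N := N) (R := R) (Cphi := Cphi) (Q := Q) (z := z) (v := u) (w := w)
    hN hR hR1 (by positivity) hC1 (fun S hS => hphi N R S hN hR hS) hw
  rw [hwdef, add_sub_cancel, show gOf (omC G i y₀) J₀ = gC G i y₀ from rfl] at hl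
  have hc : Cphi * (3 * Q + 3) * R⁻¹ ^ 2 * gC G i y₀ u u
      ≤ Cphi * (3 * Q + 3) * κ * R⁻¹ ^ 2 * gC G i y u u := by
    refine (mul_le_mul_of_nonneg_left c2 (by positivity)).trans_eq ?_
    ring
  refine ⟨(neg_le_neg hc).trans hl.1, fun hcore => ?_⟩
  have h7 := hl.2 hcore
  have h8 : R⁻¹ ^ 2 * (N - 1) / κ * gC G i y u u ≤ R⁻¹ ^ 2 * (N - 1) * gC G i y₀ u u := by
    rw [div_mul_eq_mul_div, div_le_iff₀ (by positivity), mul_assoc (R⁻¹ ^ 2 * (N - 1))]
    refine mul_le_mul_of_nonneg_left (by linarith) (mul_nonneg (sq_nonneg _) (by linarith))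
  exact le_trans (by linarith [hc, h8]) h7

end Vale.Agent.P204.Full.Density
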