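import Vale.Agent.P204.Full.Density.Chart
import Vale.Agent.P204.Full.Density.Deriv

/-!
Exact forms supported in a chart and the transfer of derivative bounds to all charts.
-/

open scoped Manifold ContDiff Topology
open MeasureTheory Set Filter Metric

noncomputable section

namespace Vale.Agent.P204.Full.Density

universe u

variable {X : Type u} [TopologicalSpace X] [T2Space X] [ChartedSpace R4 X]
  [IsManifold 𝓘(ℝ, R4) ∞ X]

set_option linter.unusedSectionVars false
set_option maxSynthPendingDepth 3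

/-- `pullBil` as a continuous linear map. -/
def pullCLM (A : Endo) : Bil →L[ℝ] Bil :=
  LinearMap.toContinuousLinearMap
    { toFun := pullBil A
      map_add' := fun a b => by ext u v; simp [pullBil]
      map_smul' := fun r b => by ext u v; simp [pullBil] }

theorem pullCLM_apply (A : Endo) (b : Bil) : pullCLM A b = pullBil A b := rfl

theorem contDiffOn_pullCLM {A : R4 → Endo} {U : Set R4} (hA : ContDiffOn ℝ ∞ A U) :
    ContDiffOn ℝ ∞ (fun z => pullCLM (A z)) U :=
  contDiffOn_clm_apply.2 fun b => contDiffOn_clm_apply.2 fun _ => contDiffOn_clm_apply.2 fun _ =>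
    ((contDiffOn_const (c := b)).clm_apply (hA.clm_apply contDiffOn_const)).clm_apply
      (hA.clm_apply contDiffOn_const)

theorem pullBil_zero (A : Endo) : pullBil A (0 : Bil) = 0 := (pullCLM A).map_zero

variable {c c' : OpenPartialHomeomorph X R4}

theorem view2_change (hc : c ∈ IsManifold.maximalAtlas 𝓘(ℝ, R4) ∞ X) {z : R4}
    (hz : z ∈ overlap c c') (θ : X → Bil) :
    view2 c' θ z = pullBil (transDer c c' z) (view2 c θ (c (c'.symm z))) := by
  have hd : ∀ v : R4, dsymm c (c (c'.symm z))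
      ((mfderiv 𝓘(ℝ, R4) 𝓘(ℝ, R4) c (c'.symm z) : Endo) v) = v := fun v => by
    exact DFunLike.congr_fun ((chart_mdiff hc).symm_comp_deriv hz.2) v
  ext u v
  show θ (c'.symm z) (dsymm c' z u) (dsymm c' z v) =
    θ (c.symm (c (c'.symm z)))
      (dsymm c (c (c'.symm z)) (transDer c c' z u)) (dsymm c (c (c'.symm z)) (transDer c c' z v))
  have e : ∀ w : R4, dsymm c (c (c'.symm z)) (transDer c c' z w) = dsymm c' z w := fun w => hd _
  rw [e, e, c.left_inv hz.2]

/-- The support in `X` of a field supported in a chart. -/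
theorem isCompact_image {K : Set R4} (hK : IsCompact K) (hs : K ⊆ c.target) :
    IsCompact (c.symm '' K) :=
  hK.image_of_continuousOn (c.continuousOn_symm.mono hs)

theorem push1_zero {α : R4 → Cov} {x : X} (hx : x ∉ c.symm '' tsupport α) : push1 c α x = 0 := by
  rw [push1]
  split
  · next h =>
      have : α (c x) = 0 := image_eq_zero_of_notMem_tsupport fun hh =>
        hx ⟨c x, hh, c.left_inv h⟩
      rw [this]
      ext v
      rfl
  · rfl

theorem extD1_push1_zero {α : R4 → Cov} (hα : HasCompactSupport α) (hs : tsupport α ⊆ c.target)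
    {x : X} (hx : x ∉ c.symm '' tsupport α) : extD1 (push1 c α) x = 0 := by
  set e := chartAt R4 x
  have hW : IsOpen (c.symm '' tsupport α)ᶜ := (isCompact_image hα hs).isClosed.isOpen_compl
  have hev : view1 e (push1 c α) =ᶠ[𝓝 (e x)] fun _ => 0 := by
    have ht : e x ∈ e.target := e.map_source (mem_chart_source R4 x)
    have h : ∀ᶠ y in 𝓝 (e x), e.symm y ∈ (c.symm '' tsupport α)ᶜ :=
      (e.continuousAt_symm ht).eventually_mem
        (hW.mem_nhds (by rwa [e.left_inv (mem_chart_source R4 x)]))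
    filter_upwards [h] with y hy
    simp [view1, push1_zero hy, pullCov]
  rw [extD1, d1At, hev.fderiv_eq, fderiv_fun_const]
  ext u v
  simp

variable [MeasurableSpace X] {G : Geo X}

theorem extD1_push1_view (hB : BaseFacts G) (hc : c ∈ IsManifold.maximalAtlas 𝓘(ℝ, R4) ∞ X)
    {α : R4 → Cov} (h1 : ContDiff ℝ ∞ α) (h2 : HasCompactSupport α) (h3 : tsupport α ⊆ c.target)
    {y : R4} (hy : y ∈ c.target) : view2 c (extD1 (push1 c α)) y = d1At α y := by
  obtain ⟨hsm, hv⟩ := hB.push1_smooth c hc α h1 h2 h3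
  rw [hB.d_view _ hsm c hc y hy, d1At, d1At]
  have : view1 c (push1 c α) =ᶠ[𝓝 y] α :=
    Filter.eventually_of_mem (c.open_target.mem_nhds hy) fun z hz => hv z hz
  rw [this.fderiv_eq]

theorem within_bound {F : Type*} [NormedAddCommGroup F] [NormedSpace ℝ F] {g : R4 → F}
    {U E : Set R4} (hU : IsOpen U) (hE : IsCompact E) (hEU : E ⊆ U) (hg : ContDiffOn ℝ ∞ g U)
    (m : ℕ) :
    ∃ B : ℝ, 1 ≤ B ∧ ∀ j ≤ m, ∀ z ∈ E, ‖iteratedFDerivWithin ℝ j g U z‖ ≤ B := by
  have h : ∀ j, ∃ B, ∀ z ∈ E, ‖iteratedFDerivWithin ℝ j g U z‖ ≤ B := fun j =>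
    hE.exists_bound_of_continuousOn
      ((hg.continuousOn_iteratedFDerivWithin (by exact_mod_cast le_top) hU.uniqueDiffOn).mono hEU)
  choose B hB' using h
  have h0 : (0 : ℝ) ≤ ∑ j ∈ Finset.range (m + 1), max (B j) 0 :=
    Finset.sum_nonneg fun j _ => le_max_right _ _
  refine ⟨1 + ∑ j ∈ Finset.range (m + 1), max (B j) 0, by linarith, fun j hj z hz => ?_⟩
  refine (hB' j z hz).trans ((le_max_left _ (0 : ℝ)).trans ?_)
  have := Finset.single_le_sum (f := fun j => max (B j) (0 : ℝ)) (fun j _ => le_max_right _ _)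
    (Finset.mem_range.2 (Nat.lt_succ_iff.2 hj))
  linarith

/-- `L²` norm of a bounded function vanishing outside a small ball. -/
theorem sqrt_integral_le {g : R4 → ℝ} {B r : ℝ} {z0 : R4} (hB : 0 ≤ B) (hr : 0 ≤ r)
    (hg : ∀ y, 0 ≤ g y) (hgB : ∀ y, g y ≤ B) (h0 : ∀ y, y ∉ closedBall z0 r → g y = 0) :
    Real.sqrt (∫ y, g y ^ 2)
      ≤ B * (r ^ 2 * Real.sqrt ((volume : Measure R4).real (closedBall 0 1))) := by
  have hfin : volume (closedBall z0 r) < ⊤ := measure_closedBall_lt_top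
  have hint : ∫ y, g y ^ 2 ≤ B ^ 2 * volume.real (closedBall z0 r) := by
    rw [← setIntegral_eq_integral_of_forall_compl_eq_zero (s := closedBall z0 r) fun y hy => by
      rw [h0 y hy]; simp]
    refine (Real.le_norm_self _).trans (norm_setIntegral_le_of_norm_le_const hfin fun y _ => ?_)
    rw [Real.norm_eq_abs, abs_of_nonneg (sq_nonneg _)]
    exact pow_le_pow_left₀ (hg y) (hgB y) 2
  have hvol : volume.real (closedBall z0 r)
      = r ^ 4 * (volume : Measure R4).real (closedBall 0 1) := by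
    have hfd : Module.finrank ℝ R4 = 4 := by simp [R4]
    rw [Measure.addHaar_real_closedBall' _ _ hr, hfd]
  refine (Real.sqrt_le_sqrt hint).trans (le_of_eq ?_)
  rw [hvol, Real.sqrt_mul (sq_nonneg _), Real.sqrt_sq hB, Real.sqrt_mul (by positivity),
    show r ^ 4 = (r ^ 2) ^ 2 by ring, Real.sqrt_sq (by positivity)]

/-- Derivatives of `w ↦ P w (f (T w))`. -/
theorem comp_apply_bound {F G : Type*} [NormedAddCommGroup F] [NormedSpace ℝ F]
    [NormedAddCommGroup G] [NormedSpace ℝ G] {U : Set R4} (hU : IsOpen U) {P : R4 → F →L[ℝ] G}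
    {T : R4 → R4} {f : R4 → F} (hP : ContDiffOn ℝ ∞ P U) (hT : ContDiffOn ℝ ∞ T U)
    (hf : ContDiff ℝ ∞ f) {z : R4} (hz : z ∈ U) {m : ℕ} {BP D A : ℝ} (hBP0 : 0 ≤ BP) (hD1 : 1 ≤ D)
    (hA : 0 ≤ A) (hBP : ∀ j ≤ m, ‖iteratedFDerivWithin ℝ j P U z‖ ≤ BP)
    (hD : ∀ j ≤ m, ‖iteratedFDerivWithin ℝ j T U z‖ ≤ D)
    (hfb : ∀ j ≤ m, ‖iteratedFDeriv ℝ j f (T z)‖ ≤ A) :
    ‖iteratedFDerivWithin ℝ m (fun w => P w (f (T w))) U z‖
      ≤ 2 ^ m * BP * (m.factorial * D ^ m) * A := by
  refine (norm_iteratedFDerivWithin_clm_apply hP (hf.comp_contDiffOn hT) hU.uniqueDiffOn hz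
    (by exact_mod_cast le_top)).trans ?_
  have hcomp : ∀ j ≤ m, ‖iteratedFDerivWithin ℝ j (f ∘ T) U z‖ ≤ m.factorial * D ^ m * A := by
    intro j hj
    refine (norm_iteratedFDerivWithin_comp_le (t := univ) hf.contDiffOn hT
      (by exact_mod_cast le_top) uniqueDiffOn_univ hU.uniqueDiffOn (mapsTo_univ _ _) hz
      (C := A) (D := D) (fun q hq => ?_) (fun q hq1 hq => ?_)).trans ?_
    · rw [iteratedFDerivWithin_univ]; exact hfb q (hq.trans hj)
    · exact (hD q (hq.trans hj)).trans (le_self_pow₀ hD1 (by omega))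
    · calc (j.factorial : ℝ) * A * D ^ j ≤ (m.factorial : ℝ) * A * D ^ m :=
            mul_le_mul (mul_le_mul_of_nonneg_right
              (by exact_mod_cast Nat.factorial_le hj) hA) (pow_le_pow_right₀ hD1 hj)
              (by positivity) (by positivity)
        _ = _ := by ring
  calc _ ≤ ∑ q ∈ Finset.range (m + 1), (m.choose q : ℝ) * BP * (m.factorial * D ^ m * A) := by
          refine Finset.sum_le_sum fun q hq => ?_
          have hq' := Nat.lt_succ_iff.1 (Finset.mem_range.1 hq)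
          exact mul_le_mul (mul_le_mul_of_nonneg_left (hBP q hq') (Nat.cast_nonneg _))
            (hcomp _ (Nat.sub_le m q)) (norm_nonneg _) (by positivity)
    _ = _ := by
          rw [← Finset.sum_mul, ← Finset.sum_mul, ← Nat.cast_sum, Nat.sum_range_choose]
          push_cast
          ring

theorem small_set {g T : R4 → R4} {S V : Set R4} {M : NNReal} (hM : LipschitzOnWith M g S)
    (hV : ∀ w ∈ V, T w ∈ S ∧ g (T w) = w) {a : R4} {δ : ℝ} (hδ : 0 ≤ δ)
    (hT : ∀ w ∈ V, T w ∈ closedBall a δ) {z0 : R4} (hz0 : z0 ∈ V) :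
    V ⊆ closedBall z0 ((2 * M + 1) * δ) := by
  intro z hz
  obtain ⟨h1, e1⟩ := hV z hz
  obtain ⟨h2, e2⟩ := hV z0 hz0
  have h := hM.dist_le_mul _ h1 _ h2
  rw [e1, e2] at h
  have h' : dist (T z) (T z0) ≤ 2 * δ :=
    (dist_triangle_right (T z) (T z0) a).trans
      ((add_le_add (mem_closedBall.1 (hT z hz)) (mem_closedBall.1 (hT z0 hz0))).trans_eq
        (two_mul δ).symm)
  rw [mem_closedBall]
  calc dist z z0 ≤ (M : ℝ) * dist (T z) (T z0) := h
    _ ≤ (M : ℝ) * (2 * δ) := mul_le_mul_of_nonneg_left h' M.coe_nonneg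
    _ = 2 * M * δ := by ring
    _ ≤ (2 * M + 1) * δ := mul_le_mul_of_nonneg_right (le_add_of_nonneg_right zero_le_one) hδ

/-- Derivative bounds in one chart give derivative bounds in all charts. -/
theorem transfer (hB : BaseFacts G) (i l : Fin G.n) (m : ℕ) :
    ∃ C : ℝ, 0 ≤ C ∧ ∀ (θ : X → Bil) (f : R4 → Bil) (a : R4) (δ A : ℝ), ContDiff ℝ ∞ f →
      ‖a‖ ≤ 1 → 0 ≤ δ → δ ≤ 1 → 0 ≤ A →
      (∀ x, θ x ≠ 0 → x ∈ (G.c i).symm '' closedBall a δ) →
      (∀ y ∈ (G.c i).target, view2 (G.c i) θ y = f y) →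
      (∀ j ≤ m, ∀ y ∈ closedBall a δ, ‖iteratedFDeriv ℝ j f y‖ ≤ A) →
      Real.sqrt (∫ y, ‖iteratedFDeriv ℝ m (fun z => kappaBump z • view2 (G.c l) θ z) y‖ ^ 2)
        ≤ C * A * δ ^ 2 := by
  set c := G.c i with hci
  set c' := G.c l with hcl
  have hc := G.c_mem i
  have hc' := G.c_mem l
  have ht : ∀ k, closedBall (0 : R4) 3 ⊆ (G.c k).target := fun k => by
    rw [G.c_target]; exact closedBall_subset_ball (by norm_num)
  have hK2 : closedBall (0 : R4) 2 ⊆ c.target :=
    (closedBall_subset_closedBall (by norm_num)).trans (ht i)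
  set KX := c.symm '' closedBall (0 : R4) 2
  have hKX : IsCompact KX := isCompact_image (isCompact_closedBall _ _) hK2
  set E := closedBall (0 : R4) 3 ∩ c'.symm ⁻¹' KX with hE_def
  have hEc : IsCompact E :=
    (isCompact_closedBall _ _).of_isClosed_subset
      ((c'.continuousOn_symm.mono (ht l)).preimage_isClosed_of_isClosed isClosed_closedBall
        hKX.isClosed) inter_subset_left
  set U := overlap c c'
  have hEU : E ⊆ U := by
    rintro z ⟨hz, w, hw, hwe⟩
    exact ⟨ht l hz, by rw [Set.mem_preimage, ← hwe]; exact c.map_target (hK2 hw)⟩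
  set T := fun z => c (c'.symm z) with hT
  have hTs : ContDiffOn ℝ ∞ T U := trans_smooth hc hc'
  have hU : IsOpen U := isOpen_overlap
  set Pm := fun z => kappaBump z • pullCLM (transDer c c' z)
  have hPs : ContDiffOn ℝ ∞ Pm U :=
    (kappaBump.contDiff.contDiffOn).smul (contDiffOn_pullCLM (transDer_smooth hB hc hc'))
  obtain ⟨BP, hBP1, hBP⟩ := within_bound hU hEc hEU hPs m
  obtain ⟨D, hD1, hD⟩ := within_bound hU hEc hEU hTs m
  -- the inverse transition is Lipschitz
  obtain ⟨M, hM⟩ : ∃ M : NNReal, LipschitzOnWith M (fun y => c' (c.symm y))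
      (closedBall 0 2 ∩ c.symm ⁻¹' (c'.symm '' closedBall 0 3)) := by
    have hS : IsCompact (closedBall (0 : R4) 2 ∩ c.symm ⁻¹' (c'.symm '' closedBall (0 : R4) 3)) :=
      (isCompact_closedBall _ _).of_isClosed_subset
        ((c.continuousOn_symm.mono hK2).preimage_isClosed_of_isClosed isClosed_closedBall
          (isCompact_image (isCompact_closedBall _ _) (ht l)).isClosed) inter_subset_left
    refine LocallyLipschitzOn.exists_lipschitzOnWith_of_compact hS fun y hy => ?_
    have hy' : y ∈ overlap c' c := by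
      obtain ⟨hy2, w, hw, hwe⟩ := hy
      exact ⟨hK2 hy2, by rw [Set.mem_preimage, ← hwe]; exact c'.map_target (ht l hw)⟩
    obtain ⟨K, t, htn, hK⟩ := (((trans_smooth hc' hc).contDiffAt
      (isOpen_overlap.mem_nhds hy')).of_le (by norm_num : (1 : ℕ∞ω) ≤ ∞)).exists_lipschitzOnWith
    exact ⟨K, t, nhdsWithin_le_nhds htn, hK⟩
  set vball := Real.sqrt ((volume : Measure R4).real (closedBall 0 1))
  refine ⟨2 ^ m * BP * (m.factorial * D ^ m) * ((2 * M + 1) ^ 2 * vball),
    by positivity, fun θ f a δ A hf ha hδ hδ1 hA hsupp hview hfb => ?_⟩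
  have hball : closedBall a δ ⊆ closedBall (0 : R4) 2 := fun y hy => by
    rw [mem_closedBall, dist_zero_right]
    rw [mem_closedBall, dist_eq_norm] at hy
    have := norm_le_norm_add_norm_sub' y a
    linarith
  set F := fun z => kappaBump z • view2 c' θ z with hF
  set V := E ∩ T ⁻¹' closedBall a δ with hV
  have hVc : IsClosed V :=
    ((hTs.continuousOn.mono hEU).preimage_isClosed_of_isClosed hEc.isClosed isClosed_closedBall)
  have hzero : ∀ z, z ∉ V → F z = 0 := by
    intro z hz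
    by_contra h0
    obtain ⟨hk, hv⟩ := smul_ne_zero_iff.1 h0
    have hz3 : z ∈ closedBall (0 : R4) 3 := by
      have h' : z ∈ Function.support kappaBump := hk
      rw [ContDiffBump.support_eq] at h'
      exact ball_subset_closedBall h'
    have hθ : θ (c'.symm z) ≠ 0 := fun h => hv (by rw [view2, h, pullBil_zero])
    obtain ⟨w, hw, hwe⟩ := hsupp _ hθ
    refine hz ⟨⟨hz3, w, hball hw, hwe⟩, ?_⟩
    rw [Set.mem_preimage, hT]
    simp only
    rw [← hwe, c.right_inv (hK2 (hball hw))]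
    exact hw
  have hder : ∀ z, z ∉ V → iteratedFDeriv ℝ m F z = 0 := fun z hz => by
    have h : F =ᶠ[𝓝 z] fun _ => (0 : Bil) :=
      Filter.eventually_of_mem (hVc.isOpen_compl.mem_nhds hz) hzero
    rw [(h.iteratedFDeriv ℝ m).eq_of_nhds]
    simp
  set B0 := 2 ^ m * BP * (m.factorial * D ^ m) * A with hB0
  have hbound : ∀ z, ‖iteratedFDeriv ℝ m F z‖ ≤ B0 := by
    intro z
    by_cases hz : z ∈ V
    swap
    · rw [hder z hz, norm_zero]; positivity
    have hzU := hEU hz.1
    rw [← iteratedFDerivWithin_of_isOpen m hU hzU]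
    have heq : Set.EqOn F (fun w => Pm w (f (T w))) U := fun w hw => by
      simp only [hF, Pm, smul_apply, pullCLM_apply]
      rw [view2_change hc hw, hview _ (c.map_source hw.2)]
    rw [iteratedFDerivWithin_congr heq hzU]
    exact comp_apply_bound hU hPs hTs hf hzU (zero_le_one.trans hBP1) hD1 hA
      (fun j hj => hBP j hj z hz.1) (fun j hj => hD j hj z hz.1) fun j hj => hfb j hj _ hz.2
  clear_value F
  rcases V.eq_empty_or_nonempty with hV0 | ⟨z0, hz0⟩
  · have : ∀ y, ‖iteratedFDeriv ℝ m F y‖ ^ 2 = 0 := fun y => by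
      rw [hder y (by simp [hV0])]; simp
    simp only [this, integral_zero, Real.sqrt_zero]
    positivity
  have hsub : V ⊆ closedBall z0 ((2 * M + 1) * δ) := by
    have hTV : ∀ w ∈ V, T w ∈ closedBall a δ := fun w hw =>
      Set.mem_preimage.1 ((Set.mem_inter_iff w E (T ⁻¹' closedBall a δ)).1 hw).2
    refine small_set (T := T) (a := a) hM (fun w hw => ?_) hδ hTV hz0
    have h := c.left_inv (hEU hw.1).2
    exact ⟨⟨hball (hTV w hw), by simp only [Set.mem_preimage, hT, h]; exact ⟨w, hw.1.1, rfl⟩⟩,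
      by simp only [hT, h]; exact c'.right_inv (hEU hw.1).1⟩
  refine (sqrt_integral_le (g := fun y => ‖iteratedFDeriv ℝ m F y‖) (r := (2 * (M : ℝ) + 1) * δ)
    (z0 := z0) (by positivity)
    (mul_nonneg (by positivity) hδ) (fun y => norm_nonneg _) hbound fun y hy => ?_).trans
    (le_of_eq ?_)
  · rw [hder y fun h => hy (hsub h), norm_zero]
  · rw [hB0]; ring

end Vale.Agent.P204.Full.Density
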